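import Vale.Agent.P042.K.Twist

/-! # P042 K/EquiB (TASK; helper names end with _eb): one quadratic condition; from equidistribution to `SymF`.
`equi1`: `χ` of order two and `twist` (`NP 2 f` from the simple root): `2 * 1_W = 1 - χ (f v)` off the roots.
`symF_of`: `a = 0` gives `E |W| ≥ p - C p ^ (3 / 4) ≥ p / 2` for `p ≥ (2 C) ^ 4`; for `a ≠ 0`, `∑ v, ψ (a v) = 0` (`AddChar.sum_mulShift`, `ZMod.isPrimitive_stdAddChar`). -/

namespace Vale.Agent.P042.S

open Finset Polynomial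

theorem sq_eb {p : ℕ} [Fact p.Prime] (χ : MulChar (ZMod p) ℂ) (h : orderOf χ = 2) (y : ZMod p)
    (hy : y ≠ 0) : χ y = 1 ∨ χ y = -1 := by
  have h2 : χ ^ 2 = 1 := by rw [← h]; exact pow_orderOf_eq_one χ
  have hu : IsUnit y := hy.isUnit
  have h3 : (χ ^ 2) y = 1 := by rw [h2]; exact MulChar.one_apply hu
  rw [MulChar.pow_apply' χ two_ne_zero] at h3
  exact sq_eq_one_iff.mp h3

theorem norm_psi_eb {p : ℕ} [Fact p.Prime] (x : ZMod p) : ‖(ZMod.stdAddChar x : ℂ)‖ = 1 := by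
  rw [ZMod.stdAddChar_apply]
  exact Circle.norm_coe _

theorem one_le_eb (p : ℕ) [hp : Fact p.Prime] : (1 : ℝ) ≤ (p : ℝ) ^ (3 / 4 : ℝ) :=
  Real.one_le_rpow (by exact_mod_cast hp.out.one_lt.le) (by norm_num)

open Classical in
theorem equi1 (m : ℕ) : ∃ C : ℝ, 0 ≤ C ∧ ∀ (p : ℕ) [Fact p.Prime]
    (χ : MulChar (ZMod p) ℂ), orderOf χ = 2 → ∀ f : (ZMod p)[X], f.natDegree ≤ m → f ≠ 0 →
      (∃ ρ, mu f ρ = 1) → ∀ a : ZMod p,
        ‖2 * ∑ v ∈ univ.filter (fun v => χ (f.eval v) = -1), ZMod.stdAddChar (a * v) -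
          ∑ v, ZMod.stdAddChar (a * v)‖ ≤ C * (p : ℝ) ^ (3 / 4 : ℝ) := by
  obtain ⟨C, hC, hT⟩ := twist m 2 le_rfl
  refine ⟨C + m, by positivity, fun p _ χ hχ f hf hf0 hρ a => ?_⟩
  obtain ⟨ρ, hρ⟩ := hρ
  have hNP : NP 2 f := ⟨hf0, fun e he => by simpa [hρ] using he ρ⟩
  have h1 := hT p χ hχ f hf hNP a
  have key : 2 * ∑ v ∈ univ.filter (fun v => χ (f.eval v) = -1), (ZMod.stdAddChar (a * v) : ℂ) -
      ∑ v, ZMod.stdAddChar (a * v) = -(∑ v, χ (f.eval v) * ZMod.stdAddChar (a * v)) -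
      ∑ v ∈ univ.filter (fun v => f.eval v = 0), ZMod.stdAddChar (a * v) := by
    rw [sum_filter, sum_filter, mul_sum, ← sum_sub_distrib, ← sum_neg_distrib, ← sum_sub_distrib]
    refine sum_congr rfl fun v _ => ?_
    by_cases h0 : f.eval v = 0
    · have : χ (f.eval v) = 0 := by rw [h0]; exact χ.map_zero
      rw [if_pos h0, this, if_neg (by norm_num)]
      ring
    · rcases sq_eb χ hχ _ h0 with h | h
      · rw [if_neg h0, h, if_neg (by norm_num)]
        ring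
      · rw [if_neg h0, h, if_pos rfl]
        ring
  have h2 : ‖∑ v ∈ univ.filter (fun v => f.eval v = 0), (ZMod.stdAddChar (a * v) : ℂ)‖ ≤ m := by
    refine (norm_sum_le _ _).trans ?_
    simp only [norm_psi_eb, sum_const, nsmul_eq_mul, mul_one]
    have h3 : (univ.filter (fun v => f.eval v = 0)) ⊆ f.roots.toFinset := by
      intro v hv
      rw [Multiset.mem_toFinset, mem_roots hf0]
      exact (mem_filter.mp hv).2
    have h4 := (card_le_card h3).trans ((Multiset.toFinset_card_le _).trans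
      ((card_roots' f).trans hf))
    exact_mod_cast h4
  rw [key]
  refine (norm_sub_le _ _).trans ?_
  rw [norm_neg]
  have h5 := one_le_eb p
  have h6 : (m : ℝ) ≤ m * (p : ℝ) ^ (3 / 4 : ℝ) := le_mul_of_one_le_right (Nat.cast_nonneg m) h5
  nlinarith

theorem symF_of {p : ℕ} [Fact p.Prime] {H : (ZMod p)[X]} {C E B : ℝ} (hC : 0 ≤ C) (hE : 1 ≤ E)
    (hp : (2 * C) ^ 4 ≤ p) (hB : 2 * E ≤ B) (hB' : C ≤ B) (W : Finset (ZMod p))
    (h1 : ∀ v ∈ W, -v ∈ W) (h2 : ∀ v ∈ W, ∃ x, H.eval x = v ∧ (derivative H).eval x ≠ 0)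
    (h3 : ∀ a : ZMod p, ‖(E : ℂ) * ∑ v ∈ W, ZMod.stdAddChar (a * v) -
      ∑ v, ZMod.stdAddChar (a * v)‖ ≤ C * (p : ℝ) ^ (3 / 4 : ℝ)) : SymF H B := by
  have hp0 : (0 : ℝ) ≤ p := Nat.cast_nonneg p
  have h5 := one_le_eb p
  refine ⟨W, h1, h2, ?_, fun a ha => ?_⟩
  · have h := h3 0
    simp only [zero_mul, AddChar.map_zero_eq_one, sum_const, nsmul_eq_mul, mul_one, card_univ,
      ZMod.card] at h
    have h' : ‖((E * W.card - p : ℝ) : ℂ)‖ ≤ C * (p : ℝ) ^ (3 / 4 : ℝ) := by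
      simpa using h
    rw [Complex.norm_real, Real.norm_eq_abs] at h'
    have h6 : 2 * C ≤ (p : ℝ) ^ (1 / 4 : ℝ) := by
      have := Real.rpow_le_rpow (by positivity) hp (by norm_num : (0 : ℝ) ≤ 1 / 4)
      rwa [← Real.rpow_natCast, ← Real.rpow_mul (by positivity),
        show ((4 : ℕ) : ℝ) * (1 / 4) = 1 by norm_num, Real.rpow_one] at this
    have h7 : (p : ℝ) ^ (1 / 4 : ℝ) * (p : ℝ) ^ (3 / 4 : ℝ) = p := by
      rw [← Real.rpow_add' hp0 (by norm_num)]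
      norm_num
    have h8 : 2 * C * (p : ℝ) ^ (3 / 4 : ℝ) ≤ p := by
      exact (mul_le_mul_of_nonneg_right h6 (by positivity)).trans h7.le
    have h9 := (abs_le.mp h').1
    have h10 : (0 : ℝ) ≤ W.card := Nat.cast_nonneg _
    nlinarith [mul_le_mul_of_nonneg_right hB h10]
  · have h := h3 a
    have h0 : ∑ v, (ZMod.stdAddChar (a * v) : ℂ) = 0 := by
      have := AddChar.sum_mulShift (ψ := ZMod.stdAddChar (N := p)) a
        (ZMod.isPrimitive_stdAddChar p)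
      simp only [ha, if_false, Nat.cast_zero] at this
      simpa [mul_comm] using this
    rw [h0, sub_zero, norm_mul, Complex.norm_real, Real.norm_eq_abs,
      abs_of_nonneg (by linarith)] at h
    have h10 := norm_nonneg (∑ v ∈ W, (ZMod.stdAddChar (a * v) : ℂ))
    nlinarith [mul_le_mul_of_nonneg_right hB' (by positivity : (0 : ℝ) ≤ (p : ℝ) ^ (3 / 4 : ℝ))]

end Vale.Agent.P042.S
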