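import Vale.Agent.P042.K.Equi
import Vale.Agent.P042.K.EquiB

/-! # P042 K/Bin (TASK; helper names end with _bi): binomials modulo a prime.
`d = gcd k (p - 1)`, `1 ≤ d ≤ k`, `χ` of order `d` (`MulChar.exists_mulChar_orderOf`, `Complex.isPrimitiveRoot_exp`, `ZMod.card`), `f₁ = C A⁻¹ * (X - C c)`, `f₂ = C A⁻¹ * (-X - C c)`, `ζ = 1`, `W` the set of `equi2 1 d` (`f₁ (-v) = f₂ v`).
`mu f₁ c = 1`, `mu f₂ c = 0`, `mu f₁ (-c) = 0`, `mu f₂ (-c) = 1` (`mu_eq_one`, `mu_eq_zero`; `2 c ≠ 0`).  For `v ∈ W`: `y = A⁻¹ (v - c) = z ^ d ≠ 0` (`ker_char`), `d = k a + (p - 1) b` (`Nat.gcd_eq_gcd_ab`, `zpow`, `ZMod.pow_card_sub_one_eq_one`), `x = s + z ^ a`;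
the derivative is `A k (x - s) ^ (k - 1) ≠ 0` for `p > k`.  Uniform constant `C₀ = ∑ d ∈ range (k + 1), Cd d` (`choose`), `symF_of` with `E = d ^ 2`, `B = 2 k ^ 2 + C₀`, `p₀ = ⌈(2 C₀) ^ 4⌉₊ + k + 3`. -/

namespace Vale.Agent.P042.S

open Finset Polynomial

theorem pow_bi {p : ℕ} [hp : Fact p.Prime] (k : ℕ) {z : ZMod p} (hz : z ≠ 0) :
    ∃ w : ZMod p, w ^ k = z ^ Nat.gcd k (p - 1) := by
  refine ⟨z ^ Nat.gcdA k (p - 1), ?_⟩
  rw [← zpow_natCast z (Nat.gcd k (p - 1)), Nat.gcd_eq_gcd_ab, zpow_add₀ hz,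
    zpow_mul z ((p - 1 : ℕ) : ℤ), zpow_natCast z (p - 1), ZMod.pow_card_sub_one_eq_one hz,
    one_zpow, mul_one, mul_comm, zpow_mul, zpow_natCast]

theorem mu0_bi {p : ℕ} [Fact p.Prime] {f : (ZMod p)[X]} {x : ZMod p} (h : f.eval x ≠ 0) :
    mu f (algebraMap _ _ x) = 0 := by
  refine mu_eq_zero ?_
  rw [aeval_algebraMap_apply_eq_algebraMap_eval]
  exact (_root_.map_ne_zero _).2 h

theorem mu1_bi {p : ℕ} [Fact p.Prime] {f : (ZMod p)[X]} {x : ZMod p} (h : f.eval x = 0)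
    (h' : (derivative f).eval x ≠ 0) : mu f (algebraMap _ _ x) = 1 := by
  refine mu_eq_one ?_ ?_
  · rw [aeval_algebraMap_apply_eq_algebraMap_eval, h, map_zero]
  · rw [aeval_algebraMap_apply_eq_algebraMap_eval]
    exact (_root_.map_ne_zero _).2 h'

theorem cast_bi {p : ℕ} [Fact p.Prime] {k : ℕ} (hk : 1 ≤ k) (h : k < p) : (k : ZMod p) ≠ 0 :=
  fun e => absurd (Nat.le_of_dvd hk ((ZMod.natCast_eq_zero_iff k p).1 e)) (not_le.2 h)

theorem root_bi {p : ℕ} [Fact p.Prime] {k : ℕ} (hk : 1 ≤ k) (hkp : k < p) {A s c v : ZMod p}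
    (hA : A ≠ 0) (χ : MulChar (ZMod p) ℂ) (hχ : orderOf χ = Nat.gcd k (p - 1))
    (hv : χ (A⁻¹ * (v - c)) = 1) : ∃ x, (C A * (X - C s) ^ k + C c).eval x = v ∧
      (derivative (C A * (X - C s) ^ k + C c)).eval x ≠ 0 := by
  have hy : A⁻¹ * (v - c) ≠ 0 := fun e => by
    rw [e, MulChar.map_zero] at hv
    exact zero_ne_one hv
  obtain ⟨z, hz⟩ := ker_char χ hv
  rw [hχ] at hz
  have hz0 : z ≠ 0 := by
    rintro rfl
    rw [zero_pow (Nat.gcd_pos_of_pos_left _ hk).ne'] at hz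
    exact hy hz
  obtain ⟨w, hw⟩ := pow_bi k hz0
  rw [← hz] at hw
  have hw0 : w ≠ 0 := by
    rintro rfl
    rw [zero_pow (by omega)] at hw
    exact hy hw.symm
  refine ⟨s + w, ?_, ?_⟩
  · simp only [eval_add, eval_mul, eval_C, eval_pow, eval_sub, eval_X, add_sub_cancel_left]
    rw [hw, mul_inv_cancel_left₀ hA, sub_add_cancel]
  · simp only [derivative_add, derivative_C, add_zero, derivative_C_mul, derivative_X_sub_C_pow,
      eval_mul, eval_C, eval_pow, eval_sub, eval_X, add_sub_cancel_left]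
    exact mul_ne_zero hA (mul_ne_zero (cast_bi hk hkp) (pow_ne_zero _ hw0))

theorem symF_bin (k : ℕ) (hk : 1 ≤ k) : ∃ (B : ℝ) (p₀ : ℕ), ∀ (p : ℕ) [Fact p.Prime], p₀ ≤ p →
    ∀ A s c : ZMod p, A ≠ 0 → c ≠ 0 → SymF (C A * (X - C s) ^ k + C c) B := by
  classical
  choose Cd h0 hC using equi2 1
  have hs0 : 0 ≤ ∑ d ∈ range (k + 1), Cd d := sum_nonneg fun d _ => h0 d
  refine ⟨2 * (k : ℝ) ^ 2 + ∑ d ∈ range (k + 1), Cd d,
    ⌈(2 * ∑ d ∈ range (k + 1), Cd d) ^ 4⌉₊ + k + 3, fun p _ hp A s c hA hc => ?_⟩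
  have hd1 : 1 ≤ Nat.gcd k (p - 1) := Nat.gcd_pos_of_pos_left _ hk
  have hdk : Nat.gcd k (p - 1) ≤ k := Nat.gcd_le_left _ hk
  obtain ⟨χ, hχ⟩ := MulChar.exists_mulChar_orderOf (ZMod p) (n := Nat.gcd k (p - 1))
    (by rw [ZMod.card]; exact Nat.gcd_dvd_right _ _) (Complex.isPrimitiveRoot_exp _ (by omega))
  have hle : Cd (Nat.gcd k (p - 1)) ≤ ∑ d ∈ range (k + 1), Cd d :=
    single_le_sum (fun d _ => h0 d) (mem_range.2 (by omega))
  have hA' : A⁻¹ ≠ 0 := inv_ne_zero hA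
  have h2 : (2 : ZMod p) ≠ 0 := by exact_mod_cast cast_bi (p := p) (k := 2) (by omega) (by omega)
  have h2c : A⁻¹ * (-c - c) ≠ 0 := by
    refine mul_ne_zero hA' fun e => mul_ne_zero h2 hc ?_
    linear_combination -e
  have e1 : ∀ v, (C A⁻¹ * (X - C c)).eval v = A⁻¹ * (v - c) := fun v => by simp
  have e2 : ∀ v, (C A⁻¹ * (-X - C c)).eval v = A⁻¹ * (-v - c) := fun v => by simp
  have n1 : (C A⁻¹ * (X - C c)).eval (-c) ≠ 0 := by rwa [e1]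
  have n2 : (C A⁻¹ * (-X - C c)).eval c ≠ 0 := by rwa [e2]
  have hE := hC _ p χ hχ (C A⁻¹ * (X - C c)) (C A⁻¹ * (-X - C c)) (by compute_degree)
    (by compute_degree) (fun e => n1 (by rw [e, eval_zero])) (fun e => n2 (by rw [e, eval_zero]))
    ⟨_, mu1_bi (x := c) (by rw [e1, sub_self, mul_zero]) (by simpa using hA), mu0_bi n2⟩
    ⟨_, mu0_bi n1, mu1_bi (x := -c) (by rw [e2, neg_neg, sub_self, mul_zero]) (by simpa using hA)⟩
    1 (one_pow _)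
  have hdr : (1 : ℝ) ≤ (Nat.gcd k (p - 1) : ℕ) := by exact_mod_cast hd1
  have hdr' : ((Nat.gcd k (p - 1) : ℕ) : ℝ) ≤ k := by exact_mod_cast hdk
  refine symF_of (C := ∑ d ∈ range (k + 1), Cd d) (E := ((Nat.gcd k (p - 1) : ℕ) : ℝ) ^ 2) hs0
    (one_le_pow₀ hdr) ((Nat.le_ceil _).trans (by exact_mod_cast (by omega)))
    (by nlinarith) (by nlinarith [sq_nonneg (k : ℝ)])
    (univ.filter fun v => χ ((C A⁻¹ * (X - C c)).eval v) = 1 ∧ χ ((C A⁻¹ * (-X - C c)).eval v) = 1)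
    (fun v hv => ?_) (fun v hv => ?_) fun a => ?_
  · rw [mem_filter, e1, e2] at hv ⊢
    rw [neg_neg]
    exact ⟨mem_univ _, hv.2.2, hv.2.1⟩
  · rw [mem_filter, e1] at hv
    exact root_bi hk (by omega) hA χ hχ hv.2.1
  · rw [Complex.ofReal_pow, Complex.ofReal_natCast]
    exact (hE a).trans (mul_le_mul_of_nonneg_right hle (by positivity))

end Vale.Agent.P042.S
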