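import Vale.Agent.P042.K.Mu

/-! # P042 K/MuB (TASK; helper names end with _mb): kernels of characters, bad shifts.
`ker_char`: `γ` a generator of the units (`IsCyclic.exists_generator`); `χ ^ n = 1 ↔ χ γ ^ n = 1` (`MulChar.eq_iff`), so `χ γ` has order `D`; `y = γ ^ n`, `D ∣ n`.
`bad_shift`: `t` is determined by the pair of roots `(ρ, ρ + t)`; at most `m` roots (`card_roots'`, `natDegree_map_le`). -/

namespace Vale.Agent.P042.S

open Finset Polynomial

variable {p : ℕ} [Fact p.Prime]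

theorem ker_char (χ : MulChar (ZMod p) ℂ) {y : ZMod p} (hy : χ y = 1) :
    ∃ z, y = z ^ orderOf χ := by
  obtain ⟨γ, hγ⟩ := IsCyclic.exists_monoid_generator (α := (ZMod p)ˣ)
  have hy0 : y ≠ 0 := by
    rintro rfl
    rw [χ.map_nonunit not_isUnit_zero] at hy
    exact zero_ne_one hy
  obtain ⟨n, hn⟩ := hγ (Units.mk0 y hy0)
  have h1 : y = (γ : ZMod p) ^ n := by
    rw [← Units.val_pow_eq_pow_val]
    exact (congrArg Units.val hn).symm
  have h2 : χ ^ n = 1 := by
    refine MulChar.ext fun a => ?_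
    obtain ⟨k, rfl⟩ := hγ a
    rw [MulChar.pow_apply_coe, MulChar.one_apply_coe, Units.val_pow_eq_pow_val, map_pow, ← pow_mul,
      mul_comm, pow_mul, ← map_pow, ← h1, hy, one_pow]
  obtain ⟨k, hk⟩ := orderOf_dvd_of_pow_eq_one h2
  exact ⟨(γ : ZMod p) ^ k, by rw [h1, hk, ← pow_mul, mul_comm]⟩

theorem bad_shift {f : (ZMod p)[X]} (hf : f ≠ 0) {m : ℕ} (hm : f.natDegree ≤ m) :
    ∃ T : Finset (ZMod p), T.card ≤ m ^ 2 ∧
      ∀ t, t ∉ T → ∀ ρ, mu f ρ = 0 ∨ mu f (ρ + algebraMap _ _ t) = 0 := by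
  classical
  set g := f.map (algebraMap (ZMod p) (AlgebraicClosure (ZMod p))) with hg
  have hg0 : g ≠ 0 := Polynomial.map_ne_zero hf
  have hR : g.roots.toFinset.card ≤ m :=
    (Multiset.toFinset_card_le _).trans ((card_roots' g).trans (natDegree_map_le.trans hm))
  set V := (g.roots.toFinset ×ˢ g.roots.toFinset).image fun z => z.2 - z.1 with hV
  have hi := (algebraMap (ZMod p) (AlgebraicClosure (ZMod p))).injective
  refine ⟨V.preimage _ hi.injOn, ?_, fun t ht ρ => ?_⟩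
  · have h1 : (V.preimage _ hi.injOn).card ≤ V.card :=
      card_le_card_of_injOn _ (fun t ht => mem_preimage.1 ht) hi.injOn
    refine h1.trans (card_image_le.trans ?_)
    rw [card_product, sq]
    exact Nat.mul_le_mul hR hR
  · by_contra h
    rw [not_or] at h
    have h1 : ∀ σ, ¬ mu f σ = 0 → σ ∈ g.roots.toFinset := fun σ hσ =>
      Multiset.mem_toFinset.2 ((mem_roots hg0).2
        ((rootMultiplicity_pos hg0).1 (Nat.pos_of_ne_zero hσ)))
    exact ht (mem_preimage.2 (mem_image.2 ⟨(ρ, ρ + algebraMap _ _ t),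
      mem_product.2 ⟨h1 _ h.1, h1 _ h.2⟩, add_sub_cancel_left _ _⟩))

end Vale.Agent.P042.S
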