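import Vale.Agent.P042.K.StepC
import Vale.Agent.P042.K.MuB

/-! # P042 K/Char (TASK; helper names end with _ch): the bound for character sums.
`D ∣ p - 1` (`MulChar.orderOf_dvd_card_sub_one`), `e = (p - 1) / D`.  `ω = exp (2 π i / D)` (`Complex.isPrimitiveRoot_exp`), `N i = #{x | χ (f x) = ω ^ i}`, `i < D`.  If `χ y = χ y' ≠ 0` then `y ^ e = y' ^ e` (`ker_char` for `y / y'`, `ZMod.pow_card_sub_one_eq_one`),
so `N i ≤ p / D + E` by `stepanov` and `NP.npow`.  For `f x ≠ 0` the value is some `ω ^ i` (`MulChar.exists_apply_eq_pow`), so `∑ i, N i ≥ p - m` and the sum is `∑ i, N i ω ^ i = ∑ i, (N i - p / D - E) ω ^ i` (`IsPrimitiveRoot.geom_sum_eq_zero`), of norm at most `D E + m`. -/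

namespace Vale.Agent.P042.S

open Finset Polynomial

theorem pow_eq_ch {p : ℕ} [Fact p.Prime] (χ : MulChar (ZMod p) ℂ) {e : ℕ}
    (he : e * orderOf χ + 1 = p) {y y' : ZMod p} (hy : y ≠ 0) (hy' : y' ≠ 0) (h : χ y = χ y') :
    y ^ e = y' ^ e := by
  have h0 : χ y' ≠ 0 := (hy'.isUnit.map χ).ne_zero
  have h1 : χ (y * y'⁻¹) = 1 := by
    refine mul_right_cancel₀ h0 ?_
    rw [← map_mul, inv_mul_cancel_right₀ hy', one_mul, h]
  obtain ⟨z, hz⟩ := ker_char χ h1
  have h2 : (y * y'⁻¹) ^ e = 1 := by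
    by_cases h3 : z = 0
    · have h4 : orderOf χ = 0 := by
        by_contra h5
        rw [h3, zero_pow h5] at hz
        exact mul_ne_zero hy (inv_ne_zero hy') hz
      rw [hz, h4, pow_zero, one_pow]
    · rw [hz, ← pow_mul, show orderOf χ * e = p - 1 by rw [mul_comm]; omega]
      exact ZMod.pow_card_sub_one_eq_one h3
  rwa [mul_pow, inv_pow, mul_inv_eq_one₀ (pow_ne_zero _ hy')] at h2

theorem norm_ch {D : ℕ} (hD : 2 ≤ D) {ω : ℂ} (hω : IsPrimitiveRoot ω D) (N : ℕ → ℕ) {B : ℝ}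
    (h : ∀ i, (N i : ℝ) ≤ B) :
    ‖∑ i ∈ range D, (N i : ℂ) * ω ^ i‖ ≤ D * B - (∑ i ∈ range D, N i : ℕ) := by
  have e : ∑ i ∈ range D, (N i : ℂ) * ω ^ i = -∑ i ∈ range D, ((B - N i : ℝ) : ℂ) * ω ^ i := by
    simp only [Complex.ofReal_sub, Complex.ofReal_natCast, sub_mul, sum_sub_distrib, ← mul_sum,
      hω.geom_sum_eq_zero hD, mul_zero, zero_sub, neg_neg]
  rw [e, norm_neg]
  refine (norm_sum_le _ _).trans (le_of_eq ?_)
  have e2 : ∀ i ∈ range D, ‖((B - N i : ℝ) : ℂ) * ω ^ i‖ = B - N i := fun i _ => by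
    rw [norm_mul, norm_pow, hω.norm'_eq_one (by omega), one_pow, mul_one, Complex.norm_real,
      Real.norm_of_nonneg (sub_nonneg.2 (h i))]
  rw [sum_congr rfl e2, sum_sub_distrib, sum_const, card_range, nsmul_eq_mul, Nat.cast_sum]

theorem char_sum (m D : ℕ) (hD : 2 ≤ D) : ∃ C : ℝ, 0 ≤ C ∧ ∀ (p : ℕ) [Fact p.Prime]
    (χ : MulChar (ZMod p) ℂ), orderOf χ = D → ∀ f : (ZMod p)[X], f.natDegree ≤ m → NP D f →
      ‖∑ x, χ (f.eval x)‖ ≤ C * √p := by
  classical
  have hD0 : 0 < D := by omega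
  obtain ⟨C, hC, hs⟩ := stepanov m D hD0
  refine ⟨D * C + m, by positivity, fun p _ χ hχ f hm hf => ?_⟩
  have hp : 1 ≤ p := (Fact.out : p.Prime).one_le
  obtain ⟨e, he⟩ := χ.orderOf_dvd_card_sub_one
  rw [ZMod.card, hχ] at he
  have he' : e * D + 1 = p := by rw [mul_comm]; omega
  have : NeZero D := ⟨hD0.ne'⟩
  have hω := Complex.isPrimitiveRoot_exp D hD0.ne'
  generalize Complex.exp (2 * Real.pi * Complex.I / D) = ω at hω
  have hk : ∀ x : ZMod p, ∃ k < D, f.eval x ≠ 0 → χ (f.eval x) = ω ^ k := fun x => by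
    by_cases h : f.eval x = 0
    · exact ⟨0, hD0, fun h' => absurd h h'⟩
    · obtain ⟨k, h1, h2⟩ := MulChar.exists_apply_eq_pow (hχ ▸ pow_orderOf_eq_one χ) hω h
      exact ⟨k, h1, fun _ => h2⟩
  choose k hk hk' using hk
  have hmap : ∀ x ∈ univ.filter fun x : ZMod p => f.eval x ≠ 0, k x ∈ range D :=
    fun x _ => mem_range.2 (hk x)
  have hsq : (1 : ℝ) ≤ √p := Real.one_le_sqrt.2 (by exact_mod_cast hp)
  have hN : ∀ i, (((univ.filter fun x : ZMod p => f.eval x ≠ 0).filter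
      fun x => k x = i).card : ℝ) ≤ p / D + C * √p := fun i => by
    rcases ((univ.filter fun x : ZMod p => f.eval x ≠ 0).filter
      fun x => k x = i).eq_empty_or_nonempty with h | ⟨x₀, h⟩
    · rw [h, card_empty, Nat.cast_zero]
      positivity
    · simp only [mem_filter, mem_univ, true_and] at h
      refine le_trans (Nat.cast_le.2 (card_le_card fun x hx => ?_))
        (hs p e he' f hm (hf.npow hD0) _ (pow_ne_zero e h.1))
      simp only [mem_filter, mem_univ, true_and] at hx ⊢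
      refine pow_eq_ch χ (hχ ▸ he') hx.1 h.1 ?_
      rw [hk' x hx.1, hk' x₀ h.1, hx.2, h.2]
  have e1 : ∑ x, χ (f.eval x) = ∑ i ∈ range D, (((univ.filter fun x : ZMod p =>
      f.eval x ≠ 0).filter fun x => k x = i).card : ℂ) * ω ^ i := by
    rw [← sum_filter_of_ne (p := fun x : ZMod p => f.eval x ≠ 0)
      (fun x _ h h' => h (by rw [h', MulChar.map_zero])), ← sum_fiberwise_of_maps_to hmap]
    refine sum_congr rfl fun i _ => ?_
    rw [← nsmul_eq_mul, ← sum_const]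
    refine sum_congr rfl fun x hx => ?_
    simp only [mem_filter, mem_univ, true_and] at hx
    rw [hk' x hx.1, hx.2]
  rw [e1]
  refine (norm_ch hD hω _ hN).trans ?_
  rw [← card_eq_sum_card_fiberwise hmap]
  have h1 : (univ.filter fun x : ZMod p => f.eval x = 0).card ≤ m := by
    refine (card_le_degree_of_subset_roots fun x hx => ?_).trans hm
    exact (mem_roots hf.1).2 (mem_filter.1 hx).2
  have h2 := card_filter_add_card_filter_not (s := (univ : Finset (ZMod p)))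
    fun x => f.eval x = 0
  rw [card_univ, ZMod.card] at h2
  have h3 : (p : ℝ) ≤ m + (univ.filter fun x : ZMod p => f.eval x ≠ 0).card := by
    have : p ≤ m + (univ.filter fun x : ZMod p => ¬ f.eval x = 0).card := by omega
    exact_mod_cast this
  have h4 : (D : ℝ) * (p / D) = p := mul_div_cancel₀ _ (by exact_mod_cast hD0.ne')
  have h5 : (m : ℝ) ≤ m * √p := le_mul_of_one_le_right (Nat.cast_nonneg m) hsq
  rw [mul_add, h4, add_mul, mul_assoc]
  linarith

end Vale.Agent.P042.S
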