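import Vale.Agent.P042.K.CubA
import Vale.Agent.P042.K.Bin

/-! # P042 K/Cub (TASK; helper names end with _cu): cubics modulo a prime.
`Δ₀ = discr`, `b₀ = β ^ 2 - 3 α γ`, `b = 4 β ^ 3 + 54 α ^ 2 δ - 18 α β γ`, `a = -27 α ^ 2`; `discr ⟨α, β, γ, δ - v⟩ = a v ^ 2 + b v + Δ₀` and `b ^ 2 - 4 a Δ₀ = 16 b₀ ^ 3` (`ring`); `p > 3`.
`χ` of order two (`MulChar.exists_mulChar_orderOf`, `IsPrimitiveRoot.neg_one`, `2 ∣ p - 1`).  `symF_cub1`: if `b = 0`, `equi1 2`, `quad_mu`, `symF_of` with `E = 2`; otherwise `equi2 2 2` with `ζ = -1`, `f₂ = C a * X ^ 2 + C (-b) * X + C Δ₀`, `quad_mu2`, `E = 4`; `cub_val`.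
`symF_cub`: if `b₀ = 0` the cubic is `C α * (X - C s) ^ 3 + C c` with `s = -β / (3 α)`, `c = δ + α s ^ 3`, `Δ₀ = -27 α ^ 2 c ^ 2`; `symF_bin 3`, `SymF.mono`. -/

namespace Vale.Agent.P042.S

open Finset Polynomial

theorem ne_cu {p : ℕ} [Fact p.Prime] (hp : 4 ≤ p) : (2 : ZMod p) ≠ 0 ∧ (3 : ZMod p) ≠ 0 := by
  constructor
  · intro h
    have h1 : ((2 : ℕ) : ZMod p) = 0 := by exact_mod_cast h
    have := Nat.le_of_dvd (by norm_num) ((ZMod.natCast_eq_zero_iff _ _).1 h1)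
    omega
  · intro h
    have h1 : ((3 : ℕ) : ZMod p) = 0 := by exact_mod_cast h
    have := Nat.le_of_dvd (by norm_num) ((ZMod.natCast_eq_zero_iff _ _).1 h1)
    omega

theorem chi_cu {p : ℕ} [hp : Fact p.Prime] (h : 4 ≤ p) :
    ∃ χ : MulChar (ZMod p) ℂ, orderOf χ = 2 := by
  refine MulChar.exists_mulChar_orderOf (ZMod p) ?_ (IsPrimitiveRoot.neg_one (R := ℂ) 0 (by omega))
  rw [ZMod.card]
  have := hp.out.eq_two_or_odd
  omega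

theorem ne0_cu {F : Type} [Field F] {a : F} (ha : a ≠ 0) (b c : F) :
    C a * X ^ 2 + C b * X + C c ≠ 0 := fun h => by
  have := natDegree_quadratic (b := b) (c := c) ha
  rw [h, natDegree_zero] at this
  omega

theorem discr_cu {F : Type} [Field F] (α β γ δ v : F) : Cubic.discr ⟨α, β, γ, δ - v⟩ =
    (C (-27 * α ^ 2) * X ^ 2 + C (4 * β ^ 3 + 54 * α ^ 2 * δ - 18 * α * β * γ) * X +
      C (Cubic.discr ⟨α, β, γ, δ⟩)).eval v := by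
  simp only [Cubic.discr, eval_add, eval_mul, eval_C, eval_pow, eval_X]
  ring

open Classical in
theorem symF_cub1 : ∃ (B : ℝ) (p₀ : ℕ), ∀ (p : ℕ) [Fact p.Prime], p₀ ≤ p →
    ∀ α β γ δ : ZMod p, α ≠ 0 → β ^ 2 - 3 * α * γ ≠ 0 → SymF (Cubic.toPoly ⟨α, β, γ, δ⟩) B := by
  obtain ⟨C₁, h₁, e₁⟩ := equi1 2
  obtain ⟨C₂, h₂, e₂⟩ := equi2 2 2
  refine ⟨8 + (C₁ + C₂), ⌈(2 * (C₁ + C₂)) ^ 4⌉₊ + 4, fun p _ hp α β γ δ hα hb₀ => ?_⟩
  have hp4 : 4 ≤ p := by omega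
  have hpC : (2 * (C₁ + C₂)) ^ 4 ≤ p := by
    refine (Nat.le_ceil _).trans ?_
    exact_mod_cast (Nat.le_add_right _ 4).trans hp
  obtain ⟨n2, n3⟩ := ne_cu hp4
  obtain ⟨χ, hχ⟩ := chi_cu hp4
  have hv := fun v => cub_val hχ (β := β) (γ := γ) (δ := δ) (v := v) hα
  simp only [discr_cu] at hv
  obtain ⟨a, ha⟩ : ∃ a, a = -27 * α ^ 2 := ⟨_, rfl⟩
  obtain ⟨b, hb⟩ : ∃ b, b = 4 * β ^ 3 + 54 * α ^ 2 * δ - 18 * α * β * γ := ⟨_, rfl⟩
  obtain ⟨c, hc⟩ : ∃ c, c = Cubic.discr ⟨α, β, γ, δ⟩ := ⟨_, rfl⟩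
  rw [← ha, ← hb, ← hc] at hv
  have ha0 : a ≠ 0 := by
    have : a = -(3 ^ 3 * α ^ 2) := by rw [ha]; ring
    rw [this]
    exact neg_ne_zero.2 (mul_ne_zero (pow_ne_zero _ n3) (pow_ne_zero _ hα))
  have hd : b ^ 2 - 4 * a * c ≠ 0 := by
    have : b ^ 2 - 4 * a * c = 2 ^ 4 * (β ^ 2 - 3 * α * γ) ^ 3 := by
      rw [ha, hb, hc, Cubic.discr]
      ring
    rw [this]
    exact mul_ne_zero (pow_ne_zero _ n2) (pow_ne_zero _ hb₀)
  have hr : (0 : ℝ) ≤ (p : ℝ) ^ (3 / 4 : ℝ) := by positivity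
  by_cases hb0 : b = 0
  · obtain ⟨ρ, -, -, hρ⟩ := quad_mu ha0 hd
    refine symF_of (C := C₁ + C₂) (E := 2) (by positivity) (by norm_num) hpC (by linarith)
      (by linarith) (univ.filter fun v => χ ((C a * X ^ 2 + C b * X + C c).eval v) = -1)
      (fun v hv' => ?_) (fun v hv' => hv v (mem_filter.1 hv').2) fun u => ?_
    · rw [mem_filter] at hv' ⊢
      refine ⟨mem_univ _, Eq.trans (congrArg χ ?_) hv'.2⟩
      simp [hb0]
    · have := e₁ p χ hχ _ natDegree_quadratic_le (ne0_cu ha0 b c) ⟨ρ, hρ⟩ u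
      rw [Complex.ofReal_ofNat]
      exact this.trans (mul_le_mul_of_nonneg_right (by linarith) hr)
  · obtain ⟨k1, k2⟩ := quad_mu2 (by omega) ha0 hb0 hd
    refine symF_of (C := C₁ + C₂) (E := 4) (by positivity) (by norm_num) hpC (by linarith)
      (by linarith) (univ.filter fun v => χ ((C a * X ^ 2 + C b * X + C c).eval v) = -1 ∧
        χ ((C a * X ^ 2 + C (-b) * X + C c).eval v) = -1)
      (fun v hv' => ?_) (fun v hv' => hv v (mem_filter.1 hv').2.1) fun u => ?_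
    · rw [mem_filter] at hv' ⊢
      refine ⟨mem_univ _, Eq.trans (congrArg χ ?_) hv'.2.2, Eq.trans (congrArg χ ?_) hv'.2.1⟩
      · simp
      · simp
    · have := e₂ p χ hχ _ _ natDegree_quadratic_le natDegree_quadratic_le (ne0_cu ha0 b c)
        (ne0_cu ha0 (-b) c) k1 k2 (-1) (by norm_num) u
      rw [show ((2 : ℕ) : ℂ) ^ 2 = ((4 : ℝ) : ℂ) by norm_num] at this
      exact this.trans (mul_le_mul_of_nonneg_right (by linarith) hr)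

theorem symF_cub : ∃ (B : ℝ) (p₀ : ℕ), ∀ (p : ℕ) [Fact p.Prime], p₀ ≤ p →
    ∀ α β γ δ : ZMod p, α ≠ 0 → (Cubic.discr ⟨α, β, γ, δ⟩ ≠ 0 ∨ β ^ 2 - 3 * α * γ ≠ 0) →
      SymF (Cubic.toPoly ⟨α, β, γ, δ⟩) B := by
  obtain ⟨B₁, p₁, h₁⟩ := symF_cub1
  obtain ⟨B₂, p₂, h₂⟩ := symF_bin 3 (by norm_num)
  refine ⟨max B₁ B₂, p₁ + p₂ + 4, fun p _ hp α β γ δ hα hh => ?_⟩
  by_cases hb₀ : β ^ 2 - 3 * α * γ = 0
  · obtain ⟨-, n3⟩ := ne_cu (p := p) (by omega)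
    have hΔ := hh.resolve_right (not_not.2 hb₀)
    have h3 : 3 * α ≠ 0 := mul_ne_zero n3 hα
    obtain ⟨s, rfl⟩ : ∃ s, β = -(3 * α * s) :=
      ⟨-β / (3 * α), by rw [mul_div_cancel₀ _ h3, neg_neg]⟩
    obtain rfl : γ = 3 * α * s ^ 2 := mul_left_cancel₀ h3 (by linear_combination -hb₀)
    obtain ⟨c, rfl⟩ : ∃ c, δ = c - α * s ^ 3 := ⟨δ + α * s ^ 3, by ring⟩
    have hc : c ≠ 0 := by
      rintro rfl
      apply hΔ
      rw [Cubic.discr]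
      ring
    have e : Cubic.toPoly ⟨α, -(3 * α * s), 3 * α * s ^ 2, c - α * s ^ 3⟩ =
        C α * (X - C s) ^ 3 + C c := by
      simp only [Cubic.toPoly, map_neg, map_mul, map_sub, map_pow, map_ofNat]
      ring
    rw [e]
    exact (h₂ p (by omega) α s c hα hc).mono (le_max_right _ _)
  · exact (h₁ p (by omega) α β γ δ hα hb₀).mono (le_max_left _ _)

end Vale.Agent.P042.S
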