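import Vale.Agent.P042.K.Defs

/-! # P042 K/Stick (TASK; helper names end with _st): a cubic with nonsquare discriminant has a simple root.
`K = AlgebraicClosure (ZMod p)`, `φ = frobenius K p`.  `fix_mem`: the `p` elements of the prime field are all the roots of `X ^ p - X` (`FiniteField.X_pow_card_sub_X_natDegree_eq`, `card_roots'`, `ZMod.pow_card`, or `FiniteField.roots_X_pow_card_sub_X` with `roots_map`).
`stick`: roots `x, y, z` in `K` (`Cubic.splits_iff_roots_eq_three`, `Cubic.discr_eq_prod_three_roots`, `Cubic.eq_prod_three_roots`); the discriminant is not `0`, so they are different; `φ` maps roots to roots and is injective;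
if no root is fixed, `φ` is a cycle of length three, so it fixes `a ^ 2 (x - y) (x - z) (y - z)`, and the discriminant is a square in `ZMod p` (`fix_mem`, injectivity of `algebraMap`).
At a root `t`: `discr = (3 α t ^ 2 + 2 β t + γ) ^ 2 * (β ^ 2 - 4 α γ - 2 α β t - 3 α ^ 2 t ^ 2)` (substitute `δ`, `ring`). -/

namespace Vale.Agent.P042.S

open Finset Polynomial

variable {p : ℕ} [Fact p.Prime]

theorem fix_mem {x : AlgebraicClosure (ZMod p)} (hx : x ^ p = x) :
    ∃ t : ZMod p, algebraMap _ _ t = x := by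
  exact RingHom.mem_fieldRange.1 (bot_le (a := (algebraMap (ZMod p) _).fieldRange)
    ((Subfield.mem_bot_iff_pow_eq_self _ p).2 hx))

theorem root_st {α β γ δ : ZMod p} (hα : α ≠ 0) (hΔ : ¬ IsSquare (Cubic.discr ⟨α, β, γ, δ⟩)) :
    ∃ t : ZMod p, α * t ^ 3 + β * t ^ 2 + γ * t + δ = 0 := by
  by_contra hno
  set f := algebraMap (ZMod p) (AlgebraicClosure (ZMod p)) with hf
  set φ := frobenius (AlgebraicClosure (ZMod p)) p with hφ
  have inj : Function.Injective f := f.injective
  have fix : ∀ a, φ (f a) = f a := fun a => by rw [hφ, frobenius_def, ← map_pow, ZMod.pow_card]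
  obtain ⟨x, y, z, h3⟩ := (Cubic.splits_iff_roots_eq_three (P := ⟨α, β, γ, δ⟩) (φ := f) hα).1
    (IsAlgClosed.splits _)
  have hb : f β = f α * -(x + y + z) := Cubic.b_eq_three_roots (P := ⟨α, β, γ, δ⟩) hα h3
  have hc : f γ = f α * (x * y + x * z + y * z) :=
    Cubic.c_eq_three_roots (P := ⟨α, β, γ, δ⟩) hα h3
  have hd : f δ = f α * -(x * y * z) := Cubic.d_eq_three_roots (P := ⟨α, β, γ, δ⟩) hα h3
  have hD : f (Cubic.discr ⟨α, β, γ, δ⟩) = (f α * f α * (x - y) * (x - z) * (y - z)) ^ 2 :=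
    Cubic.discr_eq_prod_three_roots (P := ⟨α, β, γ, δ⟩) hα h3
  have ha : f α ≠ 0 := (map_ne_zero f).2 hα
  have ev : ∀ w, f α * w ^ 3 + f β * w ^ 2 + f γ * w + f δ = f α * ((w - x) * (w - y) * (w - z)) :=
    fun w => by
      rw [hb, hc, hd]
      ring
  have key : ∀ w, (w - x) * (w - y) * (w - z) = 0 → φ w ≠ w ∧ (φ w = x ∨ φ w = y ∨ φ w = z) := by
    intro w hw
    have h1 := ev w
    rw [hw, mul_zero] at h1
    refine ⟨fun e => ?_, ?_⟩
    · obtain ⟨t, rfl⟩ := fix_mem (x := w) e
      refine hno ⟨t, inj ?_⟩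
      simpa only [map_add, map_mul, map_pow, map_zero] using h1
    · have h2 := congrArg φ h1
      simp only [map_add, map_mul, map_pow, map_zero, fix] at h2
      rw [ev, mul_eq_zero, mul_eq_zero, mul_eq_zero, sub_eq_zero, sub_eq_zero, sub_eq_zero] at h2
      exact or_assoc.1 (h2.resolve_left ha)
  have h0 : f α * f α * (x - y) * (x - z) * (y - z) ≠ 0 := fun e => hΔ ⟨0, inj (by
    rw [hD, e, mul_zero, map_zero, zero_pow two_ne_zero])⟩
  have n1 : φ x ≠ φ y := fun e => h0 (by rw [φ.injective e]; ring)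
  have n2 : φ x ≠ φ z := fun e => h0 (by rw [φ.injective e]; ring)
  have n3 : φ y ≠ φ z := fun e => h0 (by rw [φ.injective e]; ring)
  obtain ⟨x0, x1⟩ := key x (by ring)
  obtain ⟨y0, y1⟩ := key y (by ring)
  obtain ⟨z0, z1⟩ := key z (by ring)
  have hfix : φ (f α * f α * (x - y) * (x - z) * (y - z)) =
      f α * f α * (x - y) * (x - z) * (y - z) := by
    simp only [map_mul, map_sub, fix]
    rcases x1 with x1 | x1 | x1
    · exact absurd x1 x0
    · have y2 : φ y = z := by
        rcases y1 with y1 | y1 | y1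
        · rcases z1 with z1 | z1 | z1
          · exact absurd (y1.trans z1.symm) n3
          · exact absurd (x1.trans z1.symm) n2
          · exact absurd z1 z0
        · exact absurd y1 y0
        · exact y1
      have z2 : φ z = x := (z1.resolve_right fun e => e.elim
        (fun e => n2 (x1.trans e.symm)) z0)
      rw [x1, y2, z2]
      ring
    · have y2 : φ y = x := y1.resolve_right fun e => e.elim y0 fun e => n1 (x1.trans e.symm)
      have z2 : φ z = y := (z1.resolve_left fun e => n3 (y2.trans e.symm)).resolve_right z0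
      rw [x1, y2, z2]
      ring
  obtain ⟨s, hs⟩ := fix_mem (x := f α * f α * (x - y) * (x - z) * (y - z)) hfix
  exact hΔ ⟨s, inj (by rw [hD, map_mul, hs, sq])⟩

theorem stick {α β γ δ : ZMod p} (hα : α ≠ 0) (hΔ : ¬ IsSquare (Cubic.discr ⟨α, β, γ, δ⟩)) :
    ∃ t : ZMod p, α * t ^ 3 + β * t ^ 2 + γ * t + δ = 0 ∧ 3 * α * t ^ 2 + 2 * β * t + γ ≠ 0 := by
  obtain ⟨t, ht⟩ := root_st hα hΔ
  refine ⟨t, ht, fun h0 => hΔ ⟨0, ?_⟩⟩
  have e : δ = -(α * t ^ 3 + β * t ^ 2 + γ * t) := by linear_combination ht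
  have e2 : Cubic.discr ⟨α, β, γ, δ⟩ = (3 * α * t ^ 2 + 2 * β * t + γ) ^ 2 *
      (β ^ 2 - 4 * α * γ - 2 * α * β * t - 3 * α ^ 2 * t ^ 2) := by
    simp only [Cubic.discr, e]
    ring
  rw [e2, h0]
  ring

end Vale.Agent.P042.S
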