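import Vale.Agent.P042.K.Mu
import Vale.Agent.P042.K.Stick

/-! # P042 K/CubA (TASK; helper names end with _ca): tools for cubics.
`quad_mu`: a root `ρ` exists (`IsAlgClosed.exists_aeval_eq_zero`, or `exists_quadratic_eq_zero` with `IsAlgClosed.exists_eq_mul_self`); take `ρ = -b / a` if `c = 0`; `(2 a ρ + b) ^ 2 = b ^ 2 - 4 a c ≠ 0`; `mu_eq_one`.
`quad_mu2`: `ρ` from `quad_mu` for `b` and for `-b`; the other polynomial has the value `∓ 2 b ρ ≠ 0` (`mu_eq_zero`).
`cub_val`: `χ (z * z) = χ z ^ 2` is `0` or `1` (`pow_orderOf_eq_one`, `MulChar.pow_apply'`, `MulChar.one_apply`), so the argument is not a square; `stick`.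
`SymF.comp`: the same set; `x ↦ Q⁻¹ (x - r)`, `derivative_comp`. -/

namespace Vale.Agent.P042.S

open Finset Polynomial

variable {p : ℕ} [Fact p.Prime]

theorem ev_ca (a b c : ZMod p) (ρ : AlgebraicClosure (ZMod p)) :
    aeval ρ (C a * X ^ 2 + C b * X + C c) =
      algebraMap _ _ a * ρ ^ 2 + algebraMap _ _ b * ρ + algebraMap _ _ c := by
  simp only [map_add, map_mul, map_pow, aeval_C, aeval_X]

theorem der_ca (a b c : ZMod p) (ρ : AlgebraicClosure (ZMod p)) :
    aeval ρ (derivative (C a * X ^ 2 + C b * X + C c)) =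
      2 * algebraMap _ _ a * ρ + algebraMap _ _ b := by
  have : derivative (C a * X ^ 2 + C b * X + C c) = C a * (X + X) + C b := by
    simp only [derivative_add, derivative_mul, derivative_C, derivative_X, sq]
    ring
  rw [this]
  simp only [map_add, map_mul, aeval_C, aeval_X]
  ring

theorem root_ca {K : Type} [Field K] [IsAlgClosed K] {a b c : K} (ha : a ≠ 0)
    (hd : b ^ 2 - 4 * a * c ≠ 0) : ∃ ρ : K, ρ ≠ 0 ∧ a * ρ ^ 2 + b * ρ + c = 0 := by
  by_cases hc : c = 0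
  · have hb : b ≠ 0 := by
      rintro rfl
      exact hd (by rw [hc]; ring)
    refine ⟨-b / a, div_ne_zero (neg_ne_zero.mpr hb) ha, ?_⟩
    rw [hc]
    field_simp
    ring
  · have hdeg : (C a * X ^ 2 + C b * X + C c : K[X]).degree ≠ 0 := by
      rw [degree_quadratic ha]
      norm_num
    obtain ⟨ρ, hρ⟩ := IsAlgClosed.exists_root _ hdeg
    have h1 : a * ρ ^ 2 + b * ρ + c = 0 := by simpa using hρ
    refine ⟨ρ, ?_, h1⟩
    rintro rfl
    exact hc (by simpa using h1)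

theorem quad_mu {a b c : ZMod p} (ha : a ≠ 0) (hd : b ^ 2 - 4 * a * c ≠ 0) :
    ∃ ρ : AlgebraicClosure (ZMod p), ρ ≠ 0 ∧ aeval ρ (C a * X ^ 2 + C b * X + C c) = 0 ∧
      mu (C a * X ^ 2 + C b * X + C c) ρ = 1 := by
  have hinj := (algebraMap (ZMod p) (AlgebraicClosure (ZMod p))).injective
  have hd' : algebraMap (ZMod p) (AlgebraicClosure (ZMod p)) b ^ 2 -
      4 * algebraMap _ _ a * algebraMap _ _ c ≠ 0 := by
    intro h
    refine hd (hinj ?_)
    simp only [map_sub, map_mul, map_pow, map_ofNat, map_zero]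
    exact h
  obtain ⟨ρ, h0, hρ⟩ := root_ca ((map_ne_zero_iff _ hinj).mpr ha) hd'
  have h1 : aeval ρ (C a * X ^ 2 + C b * X + C c) = 0 := by rw [ev_ca, hρ]
  refine ⟨ρ, h0, h1, mu_eq_one h1 ?_⟩
  rw [der_ca]
  intro h
  refine hd' ?_
  linear_combination (2 * algebraMap _ _ a * ρ + algebraMap _ _ b) * h - 4 * algebraMap _ _ a * hρ

theorem quad_mu2 (hp : p ≠ 2) {a b c : ZMod p} (ha : a ≠ 0) (hb : b ≠ 0)
    (hd : b ^ 2 - 4 * a * c ≠ 0) :
    (∃ ρ, mu (C a * X ^ 2 + C b * X + C c) ρ = 1 ∧ mu (C a * X ^ 2 + C (-b) * X + C c) ρ = 0) ∧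
      ∃ ρ, mu (C a * X ^ 2 + C b * X + C c) ρ = 0 ∧ mu (C a * X ^ 2 + C (-b) * X + C c) ρ = 1 := by
  have hinj := (algebraMap (ZMod p) (AlgebraicClosure (ZMod p))).injective
  have h2 : (2 : ZMod p) ≠ 0 := by
    intro h
    have h3 : ((2 : ℕ) : ZMod p) = 0 := by exact_mod_cast h
    exact hp ((Nat.prime_dvd_prime_iff_eq Fact.out Nat.prime_two).mp
      ((ZMod.natCast_eq_zero_iff _ _).mp h3))
  have h2b : 2 * algebraMap (ZMod p) (AlgebraicClosure (ZMod p)) b ≠ 0 := by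
    have := (map_ne_zero_iff _ hinj).mpr (mul_ne_zero h2 hb)
    rwa [map_mul, map_ofNat] at this
  constructor
  · obtain ⟨ρ, h0, h1, h3⟩ := quad_mu ha hd
    refine ⟨ρ, h3, mu_eq_zero fun h => mul_ne_zero h2b h0 ?_⟩
    rw [ev_ca] at h h1
    rw [map_neg] at h
    linear_combination h1 - h
  · obtain ⟨ρ, h0, h1, h3⟩ := quad_mu (b := -b) (c := c) ha (by rwa [neg_sq])
    refine ⟨ρ, mu_eq_zero fun h => mul_ne_zero h2b h0 ?_, h3⟩
    rw [ev_ca] at h h1
    rw [map_neg] at h1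
    linear_combination h - h1

theorem cub_val {χ : MulChar (ZMod p) ℂ} (hχ : orderOf χ = 2) {α β γ δ v : ZMod p} (hα : α ≠ 0)
    (hv : χ (Cubic.discr ⟨α, β, γ, δ - v⟩) = -1) :
    ∃ x, (Cubic.toPoly ⟨α, β, γ, δ⟩).eval x = v ∧
      (derivative (Cubic.toPoly ⟨α, β, γ, δ⟩)).eval x ≠ 0 := by
  have hns : ¬ IsSquare (Cubic.discr ⟨α, β, γ, δ - v⟩) := by
    rintro ⟨z, hz⟩
    rw [hz, map_mul, ← sq, ← MulChar.pow_apply' χ two_ne_zero, ← hχ, pow_orderOf_eq_one] at hv
    by_cases hu : IsUnit z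
    · rw [MulChar.one_apply hu] at hv
      norm_num at hv
    · rw [MulChar.map_nonunit _ hu] at hv
      norm_num at hv
  obtain ⟨t, h1, h2⟩ := stick hα hns
  refine ⟨t, ?_, ?_⟩
  · simp only [Cubic.toPoly, eval_add, eval_mul, eval_C, eval_pow, eval_X]
    linear_combination h1
  · have : derivative (Cubic.toPoly ⟨α, β, γ, δ⟩) =
        C α * (X * X + X * X + X * X) + C β * (X + X) + C γ := by
      simp only [Cubic.toPoly, derivative_add, derivative_mul, derivative_C, derivative_X, pow_succ,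
        pow_zero, derivative_one]
      ring
    rw [this]
    simp only [eval_add, eval_mul, eval_C, eval_X]
    intro h
    exact h2 (by linear_combination h)

theorem SymF.mono {H : (ZMod p)[X]} {B B' : ℝ} (h : SymF H B) (hB : B ≤ B') : SymF H B' := by
  obtain ⟨W, h1, h2, h3, h4⟩ := h
  exact ⟨W, h1, h2, h3.trans (mul_le_mul_of_nonneg_right hB (Nat.cast_nonneg _)), fun a ha =>
    (h4 a ha).trans (mul_le_mul_of_nonneg_right hB (by positivity))⟩

theorem SymF.comp {H : (ZMod p)[X]} {B : ℝ} (h : SymF H B) {Q : ZMod p} (hQ : Q ≠ 0) (r : ZMod p) :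
    SymF (H.comp (C Q * X + C r)) B := by
  obtain ⟨W, h1, h2, h3, h4⟩ := h
  refine ⟨W, h1, fun v hv => ?_, h3, h4⟩
  obtain ⟨x, hx, hx'⟩ := h2 v hv
  have e : (C Q * X + C r).eval (Q⁻¹ * (x - r)) = x := by
    simp only [eval_add, eval_mul, eval_C, eval_X]
    field_simp
    ring
  refine ⟨Q⁻¹ * (x - r), by rw [eval_comp, e, hx], ?_⟩
  rw [derivative_comp, eval_mul, eval_comp, e]
  refine mul_ne_zero ?_ hx'
  simpa using hQ

end Vale.Agent.P042.S
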