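import Mathlib

/-! # P042 K/Defs: the method of Stepanov for Kummer curves, definitions (FROZEN, owner helper37).
Overview: notes/P042K.md. -/

namespace Vale.Agent.P042.S

open Finset Polynomial

noncomputable section

/-- The matrix of multiplication by `∑ i, r i * y ^ i` when `y ^ D = f`. -/
def kM {R : Type} [CommRing R] (D : ℕ) (f : R) (r : ℕ → R) : Matrix (Fin D) (Fin D) R :=
  Matrix.of fun j l => if j.val ≤ l.val then r (l.val - j.val) else f * r (D + l.val - j.val)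

/-- No power `(c f) ^ e` with `0 < e < D` is a `D`-th power of a rational function. -/
def NPow {F : Type} [Field F] (D : ℕ) (f : F[X]) : Prop :=
  ∀ e : ℕ, 0 < e → e < D → ∀ (c : F) (a b : F[X]), c ≠ 0 → b ≠ 0 → a ^ D ≠ (C c * f) ^ e * b ^ D

/-- The `n`-th derivative of `f ^ a * r` is `f ^ (a - n) * sT f a n r`. -/
def sT {F : Type} [Field F] (f : F[X]) (a : ℕ) : ℕ → F[X] →ₗ[F] F[X]
  | 0 => LinearMap.id
  | n + 1 => (LinearMap.mulLeft F f).comp (derivative.comp (sT f a n)) +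
      (LinearMap.mulLeft F (C ((a - n : ℕ) : F) * derivative f)).comp (sT f a n)

variable {p : ℕ} [Fact p.Prime]

/-- The multiplicity of a root in the algebraic closure. -/
def mu (f : (ZMod p)[X]) (ρ : AlgebraicClosure (ZMod p)) : ℕ :=
  (f.map (algebraMap (ZMod p) (AlgebraicClosure (ZMod p)))).rootMultiplicity ρ

/-- The multiplicities of the roots of `f` have no common factor with `D`. -/
def NP (D : ℕ) (f : (ZMod p)[X]) : Prop := f ≠ 0 ∧ ∀ e : ℕ, (∀ ρ, D ∣ e * mu f ρ) → D ∣ e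

/-- A large symmetric set of noncritical values with small Fourier coefficients. -/
def SymF (H : (ZMod p)[X]) (C : ℝ) : Prop := ∃ W : Finset (ZMod p), (∀ v ∈ W, -v ∈ W) ∧
  (∀ v ∈ W, ∃ x, H.eval x = v ∧ (derivative H).eval x ≠ 0) ∧ (p : ℝ) ≤ C * W.card ∧
  ∀ a : ZMod p, a ≠ 0 → ‖∑ v ∈ W, ZMod.stdAddChar (a * v)‖ ≤ C * (p : ℝ) ^ (3 / 4 : ℝ)

end

/-- `SymF` for all large primes that do not divide `m`. -/
def Sym (h : ℤ[X]) : Prop := ∃ (C : ℝ) (m : ℕ), 0 < m ∧ ∀ (p : ℕ) [Fact p.Prime], ¬ p ∣ m →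
  SymF (h.map (Int.castRingHom (ZMod p))) C

/-- Roots modulo every `q` at which the derivative has a bounded common factor with `q`. -/
def SR (h : ℤ[X]) : Prop := ∃ Δ : ℤ, Δ ≠ 0 ∧ ∀ q : ℕ, 1 ≤ q → ∃ t : ℤ, (q : ℤ) ∣ h.eval t ∧
  ∀ d : ℤ, d ∣ q → d ∣ (derivative h).eval t → d ∣ Δ

end Vale.Agent.P042.S
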