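import Vale.Agent.P042.K.TwistB

/-! # P042 K/Equi (TASK; helper names end with _eq): equidistribution of the level sets.
`equi2`: `D ≥ 1` (the group of characters is finite, or `orderOf_dvd_card_sub_one`).  For `z` with `z ^ D = 1`, `∑ i < D, z ^ i` is `D` if `z = 1` and `0` otherwise (`mul_geom_sum`).  So for `f₁ v * f₂ v ≠ 0`, `D ^ 2 * 1_W v = ∑ i, ∑ j, (χ (f₁ v) / ζ) ^ i * (χ (f₂ v) / ζ) ^ j`;
for the at most `2 m` other `v` the double sum has norm at most `D ^ 2` and `v ∉ W`.  The term `i = j = 0` is `∑ v, ψ (a v)`, the others are bounded by `twist2` (`‖ζ‖ = 1`). -/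

namespace Vale.Agent.P042.S

open Finset Polynomial

theorem geom_eq {z ζ : ℂ} {D : ℕ} (h0 : ζ ≠ 0) (hz : z ^ D = 1) (hζ : ζ ^ D = 1) (h : z ≠ ζ) :
    ∑ i ∈ range D, (z * ζ⁻¹) ^ i = 0 := by
  have h1 : z * ζ⁻¹ ≠ 1 := fun e => h ((mul_inv_eq_one₀ h0).1 e)
  have h2 := mul_geom_sum (z * ζ⁻¹) D
  rw [mul_pow, inv_pow, hz, hζ, inv_one, mul_one, sub_self] at h2
  exact (mul_eq_zero.1 h2).resolve_left (sub_ne_zero.2 h1)

theorem geom_le_eq {z ζ : ℂ} (D : ℕ) (hz : ‖z‖ ≤ 1) (hζ : ‖ζ‖ = 1) :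
    ‖∑ i ∈ range D, (z * ζ⁻¹) ^ i‖ ≤ D := by
  refine (norm_sum_le _ _).trans ((sum_le_card_nsmul _ _ 1 fun i _ => ?_).trans_eq (by simp))
  rw [norm_pow, norm_mul, norm_inv, hζ, inv_one, mul_one]
  exact pow_le_one₀ (norm_nonneg _) hz

theorem core_eq {V : Type} [Fintype V] {x y ψ : V → ℂ} {ζ : ℂ} {D : ℕ} (hD : D ≠ 0)
    (hζ : ζ ^ D = 1) {W B : Finset V} (hW : ∀ v, v ∈ W ↔ x v = ζ ∧ y v = ζ)
    (hB : ∀ v, v ∉ B → x v ^ D = 1 ∧ y v ^ D = 1) (hx : ∀ v, ‖x v‖ ≤ 1) (hy : ∀ v, ‖y v‖ ≤ 1)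
    (hψ : ∀ v, ‖ψ v‖ = 1) {M : ℝ} (hM0 : 0 ≤ M)
    (hM : ∀ i < D, ∀ j < D, (i ≠ 0 ∨ j ≠ 0) → ‖∑ v, x v ^ i * y v ^ j * ψ v‖ ≤ M) :
    ‖(D : ℂ) ^ 2 * ∑ v ∈ W, ψ v - ∑ v, ψ v‖ ≤ B.card * (2 * (D : ℝ) ^ 2) + (D : ℝ) ^ 2 * M := by
  classical
  have hn : ‖ζ‖ = 1 := Complex.norm_eq_one_of_pow_eq_one hζ hD
  have h0 : ζ ≠ 0 := norm_ne_zero_iff.1 (by rw [hn]; exact one_ne_zero)
  obtain ⟨g, hg⟩ : ∃ g : ℂ → ℂ, ∀ z, g z = ∑ i ∈ range D, (z * ζ⁻¹) ^ i := ⟨_, fun _ => rfl⟩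
  have g1 : g ζ = D := by simp [hg, mul_inv_cancel₀ h0]
  have e1 : (D : ℂ) ^ 2 * ∑ v ∈ W, ψ v = ∑ v, (if v ∈ W then (D : ℂ) ^ 2 else 0) * ψ v := by
    simp only [ite_mul, zero_mul, sum_ite_mem, univ_inter, mul_sum]
  have e2 : ∑ v, g (x v) * g (y v) * ψ v = ∑ q ∈ range D ×ˢ range D,
      ζ⁻¹ ^ q.1 * ζ⁻¹ ^ q.2 * ∑ v, x v ^ q.1 * y v ^ q.2 * ψ v := by
    simp only [mul_sum]
    rw [sum_comm]
    refine sum_congr rfl fun v _ => ?_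
    rw [hg, hg, sum_mul_sum, ← sum_product', sum_mul]
    exact sum_congr rfl fun q _ => by ring
  have hm : ((0, 0) : ℕ × ℕ) ∈ range D ×ˢ range D := by simp [Nat.pos_of_ne_zero hD]
  rw [← add_sum_erase _ _ hm] at e2
  simp only [pow_zero, one_mul] at e2
  have e3 : (D : ℂ) ^ 2 * ∑ v ∈ W, ψ v - ∑ v, ψ v =
      ∑ v, ((if v ∈ W then (D : ℂ) ^ 2 else 0) - g (x v) * g (y v)) * ψ v +
        ∑ q ∈ (range D ×ˢ range D).erase (0, 0),
          ζ⁻¹ ^ q.1 * ζ⁻¹ ^ q.2 * ∑ v, x v ^ q.1 * y v ^ q.2 * ψ v := by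
    simp only [sub_mul, sum_sub_distrib]
    linear_combination e1 + e2
  rw [e3]
  refine (norm_add_le _ _).trans (add_le_add ?_ ?_)
  · rw [← sum_subset (subset_univ B) fun v _ hv => ?_]
    · refine (norm_sum_le _ _).trans ((sum_le_card_nsmul _ _ (2 * (D : ℝ) ^ 2)
        fun v _ => ?_).trans_eq (nsmul_eq_mul _ _))
      rw [norm_mul, hψ, mul_one]
      refine (norm_sub_le _ _).trans ?_
      have h1 : ‖if v ∈ W then (D : ℂ) ^ 2 else 0‖ ≤ (D : ℝ) ^ 2 := by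
        split_ifs <;> simp
      have h2 : ‖g (x v) * g (y v)‖ ≤ D * D := by
        rw [norm_mul, hg, hg]
        exact mul_le_mul (geom_le_eq D (hx v) hn) (geom_le_eq D (hy v) hn) (norm_nonneg _)
          (Nat.cast_nonneg D)
      linear_combination h1 + h2
    · refine mul_eq_zero_of_left (sub_eq_zero.2 ?_) _
      split_ifs with h
      · rw [((hW v).1 h).1, ((hW v).1 h).2, g1, sq]
      · rcases not_and_or.1 (mt (hW v).2 h) with h1 | h1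
        · rw [hg (x v), geom_eq h0 (hB v hv).1 hζ h1, zero_mul]
        · rw [hg (y v), geom_eq h0 (hB v hv).2 hζ h1, mul_zero]
  · refine (norm_sum_le _ _).trans ((sum_le_card_nsmul _ _ M fun q hq => ?_).trans ?_)
    · rw [mem_erase, mem_product, mem_range, mem_range] at hq
      simp only [norm_mul, norm_pow, norm_inv, hn, inv_one, one_pow, one_mul]
      refine hM _ hq.2.1 _ hq.2.2 ?_
      by_contra h
      rw [not_or, not_not, not_not] at h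
      exact hq.1 (Prod.ext h.1 h.2)
    · rw [nsmul_eq_mul]
      refine mul_le_mul_of_nonneg_right ?_ hM0
      have h1 := card_erase_le (s := range D ×ˢ range D) (a := (0, 0))
      rw [card_product, card_range, ← sq] at h1
      exact_mod_cast h1

open Classical in
theorem equi2 (m D : ℕ) : ∃ C : ℝ, 0 ≤ C ∧ ∀ (p : ℕ) [Fact p.Prime]
    (χ : MulChar (ZMod p) ℂ), orderOf χ = D → ∀ f₁ f₂ : (ZMod p)[X], f₁.natDegree ≤ m →
      f₂.natDegree ≤ m → f₁ ≠ 0 → f₂ ≠ 0 → (∃ ρ, mu f₁ ρ = 1 ∧ mu f₂ ρ = 0) →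
      (∃ ρ, mu f₁ ρ = 0 ∧ mu f₂ ρ = 1) → ∀ ζ : ℂ, ζ ^ D = 1 → ∀ a : ZMod p,
        ‖(D : ℂ) ^ 2 * ∑ v ∈ univ.filter (fun v => χ (f₁.eval v) = ζ ∧ χ (f₂.eval v) = ζ),
          ZMod.stdAddChar (a * v) - ∑ v, ZMod.stdAddChar (a * v)‖ ≤ C * (p : ℝ) ^ (3 / 4 : ℝ) := by
  obtain ⟨C, hC, h⟩ := twist2 m D
  refine ⟨2 * m * (2 * (D : ℝ) ^ 2) + (D : ℝ) ^ 2 * C, by positivity,
    fun p _ χ hχ f₁ f₂ h1 h2 h3 h4 h5 h6 ζ hζ a => ?_⟩
  have hD : D ≠ 0 := by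
    rw [← hχ]
    exact (orderOf_pos χ).ne'
  have hp : ∀ x : ZMod p, x ≠ 0 → χ x ^ D = 1 := fun x hx => by
    rw [← MulChar.pow_apply' χ hD, ← hχ, pow_orderOf_eq_one, MulChar.one_apply hx.isUnit]
  have hn : ∀ x : ZMod p, ‖χ x‖ ≤ 1 := fun x => by
    rcases eq_or_ne x 0 with rfl | hx
    · rw [MulChar.map_zero, norm_zero]
      exact zero_le_one
    · exact (Complex.norm_eq_one_of_pow_eq_one (hp x hx) hD).le
  have h7 : (1 : ℝ) ≤ (p : ℝ) ^ (3 / 4 : ℝ) :=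
    Real.one_le_rpow (by exact_mod_cast (Fact.out : p.Prime).one_le) (by norm_num)
  have h8 : ((f₁ * f₂).roots.toFinset.card : ℝ) ≤ 2 * m := by
    have h9 := (Multiset.toFinset_card_le _).trans ((card_roots' (f₁ * f₂)).trans natDegree_mul_le)
    have h10 : (f₁ * f₂).roots.toFinset.card ≤ 2 * m := by omega
    exact_mod_cast h10
  refine (core_eq (x := fun v => χ (f₁.eval v)) (y := fun v => χ (f₂.eval v))
    (ψ := fun v => ZMod.stdAddChar (a * v)) (B := (f₁ * f₂).roots.toFinset) hD hζ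
    (fun v => by simp) (fun v hv => ?_) (fun v => hn _) (fun v => hn _)
    (fun v => AddChar.norm_apply _ _) (M := C * (p : ℝ) ^ (3 / 4 : ℝ)) (by positivity)
    fun i hi j hj hij => h p χ hχ f₁ f₂ h1 h2 h3 h4 h5 h6 i hi j hj hij a).trans ?_
  · rw [Multiset.mem_toFinset, mem_roots (mul_ne_zero h3 h4), IsRoot.def, eval_mul, mul_eq_zero,
      not_or] at hv
    exact ⟨hp _ hv.1, hp _ hv.2⟩
  · have h9 := mul_le_mul_of_nonneg_right h8 (by positivity : 0 ≤ 2 * (D : ℝ) ^ 2)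
    have h10 := mul_le_mul_of_nonneg_left h7 (by positivity : 0 ≤ 2 * m * (2 * (D : ℝ) ^ 2))
    linear_combination h9 + h10

end Vale.Agent.P042.S
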