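import Vale.Agent.P042.S.QLocA

/-! # P042 K/GenC: local weights from weights modulo `p`, any degree. -/

namespace Vale.Agent.P042.S

open Finset Polynomial

theorem loc_gen {g : ℤ[X]} (h1 : 1 ≤ g.natDegree) {B : ℝ} (hB : 1 ≤ B)
    (H : ∀ p : ℕ, p.Prime →
      (∀ (j : ℕ) (a : ℤ), IsCoprime a p → NN (av (p ^ j) (ph g a (p ^ j)))) ∨
      ∃ ω : ℤ → ℝ, Function.Periodic ω (p : ℤ) ∧ ∑ t ∈ range p, ω t = p ∧
        (∀ n, 0 ≤ ω n ∧ ω n ≤ p) ∧ ∀ (j : ℕ) (a : ℤ), IsCoprime a p → ∃ κ : ℝ, 0 ≤ κ ∧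
          κ ≤ B * ((p ^ (j + 1) : ℕ) : ℝ) ^ (-(1 / 4) : ℝ) ∧
          (av (p ^ (j + 1)) fun n => ω n * ph g a (p ^ (j + 1)) n) = κ) :
    ∃ C c D, 0 < c ∧ Loc g C c D := by
  have key : ∀ p : ℕ, ∃ ω : ℤ → ℝ, Function.Periodic ω (p : ℤ) ∧ (p.Prime →
      ∑ t ∈ range p, ω t = p ∧ (∀ n, 0 ≤ ω n ∧ ω n ≤ p) ∧ ∀ (j : ℕ) (a : ℤ), IsCoprime a p →
        NN (av (p ^ (j + 1)) fun n => ω n * ph g a (p ^ (j + 1)) n) ∧
        ‖av (p ^ (j + 1)) fun n => ω n * ph g a (p ^ (j + 1)) n‖ ≤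
          ‖av (p ^ (j + 1)) (ph g a (p ^ (j + 1)))‖ +
            B * ((p ^ (j + 1) : ℕ) : ℝ) ^ (-(1 / 4) : ℝ)) := by
    intro p
    by_cases hp : p.Prime
    · rcases H p hp with h | ⟨ω, h3, h4, h5, h6⟩
      · refine ⟨fun _ => 1, fun _ => rfl, fun _ => ⟨by simp, fun _ => ⟨zero_le_one, ?_⟩,
          fun j a ha => ?_⟩⟩
        · exact Nat.one_le_cast.2 hp.one_le
        · rw [av_one_qo]
          exact ⟨h (j + 1) a ha, le_add_of_nonneg_right (by positivity)⟩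
      · refine ⟨ω, h3, fun _ => ⟨h4, h5, fun j a ha => ?_⟩⟩
        obtain ⟨κ, k0, k1, k2⟩ := h6 j a ha
        rw [k2]
        refine ⟨⟨κ, k0, rfl⟩, ?_⟩
        rw [Complex.norm_real, Real.norm_eq_abs, abs_of_nonneg k0]
        exact k1.trans (le_add_of_nonneg_left (norm_nonneg _))
    · exact ⟨fun _ => 1, fun _ => rfl, fun h => absurd h hp⟩
  choose ω hper hω using key
  obtain ⟨c, hc, -, hua⟩ := hua_lead g.natDegree
  refine ⟨6 * |(g.leadingCoeff : ℝ)| + B, min c (1 / 4), fun p => Dw_qo (ω p),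
    lt_min hc (by norm_num), fun _ _ => rfl, ?_, ?_, ?_, ?_, ?_⟩
  · intro p i
    match i with
    | 0 => exact fun _ => rfl
    | 1 =>
      intro n
      simp only [Dw_qo, pow_one, hper p n]
    | _ + 2 => exact fun _ => rfl
  · intro p hp i n
    match i with
    | 0 =>
      have h3 := sum_perm (f := fun n => ((ω p n : ℝ) : ℂ)) (q := p)
        (fun n => by simp only [hper p n]) (m := 1) isCoprime_one_left n
      have h4 : ∑ t ∈ range p, ω p (n + 1 * t) = ∑ t ∈ range p, ω p t := by exact_mod_cast h3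
      simp only [Dw_qo, pow_zero, Nat.cast_one, sum_sub_distrib, h4, (hω p hp).1]
      simp
    | i + 1 => simp [Dw_qo]
  · intro p hp i n
    have h3 : (1 : ℝ) ≤ p := by exact_mod_cast hp.one_le
    match i with
    | 0 => simp [Dw_qo]
    | 1 =>
      have h4 := (hω p hp).2.1 n
      simp only [Dw_qo, pow_one]
      rw [abs_le]
      constructor <;> linarith [h4.1, h4.2]
    | _ + 2 =>
      simp only [Dw_qo, abs_zero]
      positivity
  · intro p hp j a ha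
    match j with
    | 0 =>
      simp only [zero_add, range_one, sum_singleton, pow_zero, Dw_qo]
      rw [av_one_qo, av_triv_qo]
      exact ⟨1, zero_le_one, by simp⟩
    | j + 1 =>
      rw [two_qo _ fun i => av_zero_qo _ _]
      simp only [Dw_qo]
      rw [av_one_qo, av_sub_qo, sub_add_cancel]
      exact ((hω p hp).2.2 j a ha).1
  · intro p hp j a ha
    match j with
    | 0 =>
      simp only [zero_add, range_one, sum_singleton, pow_zero, Dw_qo]
      rw [av_one_qo, av_triv_qo]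
      simp only [norm_one, Nat.cast_one, Real.one_rpow, mul_one]
      linarith [abs_nonneg (g.leadingCoeff : ℝ)]
    | j + 1 =>
      rw [two_qo _ fun i => by simp only [Dw_qo]; rw [av_zero_qo, norm_zero]]
      simp only [Dw_qo]
      rw [av_one_qo, av_sub_qo]
      have hq : 0 < p ^ (j + 1) := pow_pos hp.pos _
      have hq1 : (1 : ℝ) ≤ ((p ^ (j + 1) : ℕ) : ℝ) := by exact_mod_cast hq
      have h3 := ((hω p hp).2.2 j a ha).2
      have h4 := hua g h1 le_rfl (p ^ (j + 1)) hq a (by push_cast; exact ha.pow_right)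
      have h5 := norm_sub_le (av (p ^ (j + 1)) fun n => ω p n * ph g a (p ^ (j + 1)) n)
        (av (p ^ (j + 1)) (ph g a (p ^ (j + 1))))
      have h6 : ((p ^ (j + 1) : ℕ) : ℝ) ^ (-c) ≤ ((p ^ (j + 1) : ℕ) : ℝ) ^ (-min c (1 / 4)) :=
        Real.rpow_le_rpow_of_exponent_le hq1 (neg_le_neg (min_le_left _ _))
      have h7 : ((p ^ (j + 1) : ℕ) : ℝ) ^ (-(1 / 4) : ℝ) ≤
          ((p ^ (j + 1) : ℕ) : ℝ) ^ (-min c (1 / 4)) :=
        Real.rpow_le_rpow_of_exponent_le hq1 (neg_le_neg (min_le_right _ _))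
      have h8 := mul_le_mul_of_nonneg_left h6 (abs_nonneg (g.leadingCoeff : ℝ))
      nlinarith

end Vale.Agent.P042.S
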