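import Vale.Agent.P042.K.GenB
import Vale.Agent.P042.K.GenC
import Vale.Agent.P042.K.CubA
import Vale.Agent.P042.S.QLoc

/-! # P042 K/GLoc (TASK; helper names end with _glo): local weights from `SR` and `Sym`; model: `loc_quad` in S/QLoc.
`m > 0` divisible by `Δ`, by the modulus of `Sym` and by all numbers up to `⌈B ^ 8⌉₊` (a factorial); `t` from `SR` with `q = m ^ 4`, `r = (t % m ^ 4).toNat ≡ t`, `Q = m ^ 2`, `g = h.comp (C Q * X + C r)`, `loc_gen` with the constant `2 B ^ 2 + 1`.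
If `p ∣ m`, `v = v_p(m)`, `Y = h'(r)`: `p ^ (v + 1) ∤ Y` (else it divides `h'(t)`, `m ^ 4`, hence `Δ ∣ m`), `Y = p ^ w Y'`, `w ≤ v`, `u = w + 2 v`, `l = Y' m' ^ 2`;
`g (n + s) - g n - Y Q s = Q ^ 2 s (k' + k s)` (`binomExpansion` at `Q n + r`, `sub_dvd_eval_sub` for `h'`), `p ^ (u + 1) ∣ m ^ 4`; `bad_gen`.
If `p ∤ m`: `SR` with `q = p` gives a root `s` with `p ∤ h'(s)`; `Q ρ + r ≡ s`; `derivative_comp`, `Polynomial.map_comp`, `SymF.comp`, `good4`. -/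

namespace Vale.Agent.P042.S

open Finset Polynomial

theorem big_glo {a : ℤ} (ha : a ≠ 0) {b : ℕ} (hb : 0 < b) (N : ℕ) :
    ∃ m : ℕ, 0 < m ∧ a ∣ m ∧ b ∣ m ∧ ∀ k : ℕ, 0 < k → k ≤ N → k ∣ m := by
  refine ⟨a.natAbs * b * N.factorial,
    Nat.mul_pos (Nat.mul_pos (Int.natAbs_pos.2 ha) hb) (Nat.factorial_pos _), ?_,
    (dvd_mul_left _ _).mul_right _, fun k h1 h2 => (Nat.dvd_factorial h1 h2).mul_left _⟩
  rw [Nat.cast_mul, Nat.cast_mul]
  exact ((Int.dvd_natAbs.2 dvd_rfl).mul_right _).mul_right _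

theorem tay_glo (h : ℤ[X]) (Q r n s : ℤ) :
    Q ^ 2 * s ∣ h.eval (Q * (n + s) + r) - h.eval (Q * n + r) - (derivative h).eval r * Q * s := by
  obtain ⟨k, hk⟩ := binomExpansion h (Q * n + r) (Q * s)
  obtain ⟨k', hk'⟩ := sub_dvd_eval_sub (Q * n + r) r (derivative h)
  have e : Q * (n + s) + r = Q * n + r + Q * s := by ring
  refine ⟨n * k' + k * s, ?_⟩
  rw [e, hk]
  linear_combination (Q * s) * hk'

theorem loc_sym {h : ℤ[X]} (hk : 1 ≤ h.natDegree) (h1 : SR h) (h2 : Sym h) :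
    ∃ r Q : ℕ, 0 < Q ∧ ∃ C' c D, 0 < c ∧ Loc (h.comp (C (Q : ℤ) * X + C (r : ℤ))) C' c D := by
  obtain ⟨Δ, hΔ, hint⟩ := h1
  obtain ⟨B, m₀, hm₀, hsym⟩ := h2
  obtain ⟨m, hm, hmΔ, hm1, hm2⟩ := big_glo hΔ hm₀ ⌈B ^ 8⌉₊
  have hm0 : (m : ℤ) ≠ 0 := by exact_mod_cast hm.ne'
  obtain ⟨t, ht, ht'⟩ := hint (m ^ 4) (pow_pos hm 4)
  rw [Nat.cast_pow] at ht ht'
  obtain ⟨r, hrt⟩ : ∃ r : ℕ, (m : ℤ) ^ 4 ∣ t - r := by
    refine ⟨(t % (m : ℤ) ^ 4).toNat, ?_⟩
    rw [Int.toNat_of_nonneg (Int.emod_nonneg _ (pow_ne_zero 4 hm0))]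
    exact Int.dvd_self_sub_emod
  have hr : (m : ℤ) ^ 4 ∣ h.eval (r : ℤ) :=
    (dvd_iff_dvd_of_dvd_sub (hrt.trans (sub_dvd_eval_sub t r h))).1 ht
  refine ⟨r, m ^ 2, pow_pos hm 2, ?_⟩
  obtain ⟨g, hg⟩ : ∃ g, g = h.comp (C ((m ^ 2 : ℕ) : ℤ) * X + C (r : ℤ)) := ⟨_, rfl⟩
  rw [← hg]
  have hdeg : 1 ≤ g.natDegree := by
    rw [hg, natDegree_comp, natDegree_linear (by exact_mod_cast (pow_pos hm 2).ne'), mul_one]
    exact hk
  have hg1 : ∀ n, g.eval n = h.eval ((m : ℤ) ^ 2 * n + r) := by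
    intro n
    rw [hg, eval_comp]
    simp
  have hg2 : ∀ n, (derivative g).eval n =
      (m : ℤ) ^ 2 * (derivative h).eval ((m : ℤ) ^ 2 * n + r) := by
    intro n
    rw [hg, derivative_comp, eval_mul, eval_comp, derivative_add, derivative_C, derivative_C_mul_X,
      add_zero, eval_add, eval_mul, eval_C, eval_C, eval_X, Nat.cast_pow]
  refine loc_gen hdeg (B := 2 * B ^ 2 + 1) (le_add_of_nonneg_left (by positivity)) fun p hp => ?_
  have hp' : Prime (p : ℤ) := Nat.prime_iff_prime_int.1 hp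
  by_cases hpm : (p : ℤ) ∣ m
  · left
    obtain ⟨v, m', hm', e1⟩ := WfDvdMonoid.max_power_factor' hm0 hp'.not_isUnit
    have hv : 1 ≤ v := by
      refine Nat.pos_of_ne_zero fun h0 => hm' ?_
      rwa [e1, h0, pow_zero, one_mul] at hpm
    have hp4 : ∀ u, u ≤ 4 * v → (p : ℤ) ^ u ∣ (m : ℤ) ^ 4 := by
      intro u hu
      rw [e1, mul_pow, ← pow_mul]
      exact (pow_dvd_pow _ (by omega)).mul_right _
    obtain ⟨Y, hY⟩ : ∃ Y, Y = (derivative h).eval (r : ℤ) := ⟨_, rfl⟩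
    have hnd : ¬ (p : ℤ) ^ (v + 1) ∣ Y := by
      intro hd
      have h0 := hp4 (v + 1) (by omega)
      have h3 : (p : ℤ) ^ (v + 1) ∣ Δ := by
        refine ht' _ h0 ((dvd_iff_dvd_of_dvd_sub
          ((h0.trans hrt).trans (sub_dvd_eval_sub t r (derivative h)))).2 ?_)
        rwa [← hY]
      have h4 := h3.trans hmΔ
      rw [e1, pow_succ] at h4
      exact hm' ((mul_dvd_mul_iff_left (pow_ne_zero v hp'.ne_zero)).1 h4)
    have hY0 : Y ≠ 0 := fun h0 => hnd (h0 ▸ dvd_zero _)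
    obtain ⟨w, Y', hY', e2⟩ := WfDvdMonoid.max_power_factor' hY0 hp'.not_isUnit
    have hw : w ≤ v := by
      by_contra hlt
      refine hnd ?_
      rw [e2]
      exact (pow_dvd_pow _ (by omega)).mul_right _
    intro j a ha
    refine bad_gen hp (u := w + 2 * v) (l := Y' * m' ^ 2) (fun hd => ?_) (fun n s => ?_) ?_ j ha
    · rcases hp'.dvd_or_dvd hd with h3 | h3
      · exact hY' h3
      · exact hm' (hp'.dvd_of_dvd_pow h3)
    · have e3 : (p : ℤ) ^ (w + 2 * v) * (Y' * m' ^ 2) = Y * (m : ℤ) ^ 2 := by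
        rw [e2, e1]
        ring
      rw [hg1, hg1, e3, hY]
      refine dvd_trans (mul_dvd_mul_right ?_ s) (tay_glo h _ _ n s)
      rw [← pow_mul]
      exact hp4 _ (by omega)
    · rw [hg1, mul_zero, zero_add]
      exact (hp4 _ (by omega)).trans hr
  · right
    have := Fact.mk hp
    have hB : B ^ 8 ≤ p := by
      by_contra hlt
      refine hpm (Int.natCast_dvd_natCast.2 (hm2 p hp.pos ?_))
      exact_mod_cast (not_le.1 hlt).le.trans (Nat.le_ceil _)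
    have hQ : ((m : ZMod p)) ^ 2 ≠ 0 := by
      refine pow_ne_zero 2 fun h0 => hpm ?_
      exact Int.natCast_dvd_natCast.2 ((ZMod.natCast_eq_zero_iff m p).1 h0)
    have hS : SymF (g.map (Int.castRingHom (ZMod p))) B := by
      have h3 := (hsym p fun hd => hpm (Int.natCast_dvd_natCast.2 (hd.trans hm1))).comp hQ r
      rw [hg, Polynomial.map_comp]
      simpa using h3
    obtain ⟨s, hs, hs'⟩ := hint p hp.one_le
    have hc : IsCoprime ((m : ℤ) ^ 2) p := (hp'.coprime_iff_not_dvd.2 hpm).symm.pow_left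
    obtain ⟨x, y, hxy⟩ := hc
    have h3 : (p : ℤ) ∣ (m : ℤ) ^ 2 * (x * (s - r)) + r - s :=
      ⟨-(y * (s - r)), by linear_combination (s - r) * hxy⟩
    obtain ⟨ω, w1, w2, w3, w4⟩ := good4 hS hB (ρ := x * (s - r))
      (by
        rw [hg1]
        exact (dvd_iff_dvd_of_dvd_sub (h3.trans (sub_dvd_eval_sub _ _ h))).2 hs)
      (by
        rw [hg2]
        intro hd
        rcases hp'.dvd_or_dvd hd with h4 | h4
        · exact hpm (hp'.dvd_of_dvd_pow h4)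
        · exact hpm ((hs' _ dvd_rfl ((dvd_iff_dvd_of_dvd_sub
            (h3.trans (sub_dvd_eval_sub _ _ (derivative h)))).1 h4)).trans hmΔ))
    refine ⟨ω, w1, w2, w3, fun j a ha => ?_⟩
    obtain ⟨κ, k0, k1, k2⟩ := w4 j a ha
    exact ⟨κ, k0, k1.trans (mul_le_mul_of_nonneg_right (by linarith) (by positivity)), k2⟩

end Vale.Agent.P042.S
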