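import Vale.Agent.P042.K.Defs
import Vale.Agent.P042.S.QuadA

/-! # P042 K/GenA (TASK; helper names end with _gna): a weight modulo `p` from `SymF`; model: `good` in S/QuadA.
Choose `x v` for `v ∈ W` (injective on `W` as `H (x v) = v`), `T = W.image x`, `ω n = if (n : ZMod p) ∈ T then p / |W| else 0`; `|W| > 0`, `p / |W| ≤ B`; `sum_qa` with `c = 1`, `d = 0`, `ph_qa`, `eval_intCast_map` (or `Polynomial.eval_map`, `eval₂_at_intCast`), `derivative_map`.
The mean is `(∑ v ∈ W, ψ (a v)) / |W|`, which is real: its conjugate is the sum over `-W = W` (`AddChar.map_neg_eq_conj`, `Finset.sum_nbij'`, `Complex.conj_eq_iff_re`). -/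

namespace Vale.Agent.P042.S

open Finset Polynomial

theorem good3 {g : ℤ[X]} {p : ℕ} [Fact p.Prime] {B : ℝ}
    (h : SymF (g.map (Int.castRingHom (ZMod p))) B) :
    1 ≤ B ∧ ∃ ω : ℤ → ℝ, Function.Periodic ω (p : ℤ) ∧ ∑ t ∈ range p, ω t = p ∧
      (∀ n, 0 ≤ ω n ∧ ω n ≤ B) ∧ (∀ n, (p : ℤ) ∣ (derivative g).eval n → ω n = 0) ∧
      ∀ a : ℤ, IsCoprime a p → ∃ κ : ℝ, |κ| ≤ B ^ 2 * (p : ℝ) ^ (-(1 / 4) : ℝ) ∧
        (av p fun n => ω n * ph g a p n) = κ := by
  classical
  obtain ⟨W, hs, hx, hc, hF⟩ := h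
  have hp : p.Prime := Fact.out
  have hpR : (0 : ℝ) < p := by exact_mod_cast hp.pos
  choose! x hx1 hx2 using hx
  have hinj : Set.InjOn x W := fun v hv w hw e => by rw [← hx1 v hv, e, hx1 w hw]
  have hcp : (W.card : ℝ) ≤ p := by
    have := card_le_univ W
    rw [ZMod.card] at this
    exact_mod_cast this
  obtain ⟨c, hc'⟩ : ∃ c : ℝ, c = W.card := ⟨_, rfl⟩
  have c0 : 0 < c := by
    rcases (Nat.cast_nonneg (α := ℝ) W.card).eq_or_lt with h | h
    · rw [← h, mul_zero] at hc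
      linarith
    · rwa [hc']
  rw [← hc'] at hc hcp
  have hB : 1 ≤ B := le_of_mul_le_mul_right (by linarith) c0
  have ev : ∀ (q : ℤ[X]) (n : ℤ), (q.map (Int.castRingHom (ZMod p))).eval (n : ZMod p) =
      ((q.eval n : ℤ) : ZMod p) := fun q n => by
    simpa using eval_intCast_map (Int.castRingHom (ZMod p)) q n
  have hsum : ∀ {M : Type} [AddCommMonoid M] (F : ZMod p → M),
      ∑ t ∈ range p, (if (t : ZMod p) ∈ W.image x then F t else 0) = ∑ v ∈ W, F (x v) := by
    intro M _ F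
    have := sum_qa (fun y => if y ∈ W.image x then F y else 0) one_ne_zero (0 : ZMod p)
    simp only [one_mul, add_zero] at this
    rw [this, ← sum_filter, filter_mem_eq_inter, univ_inter, sum_image hinj]
  refine ⟨hB, fun n => if (n : ZMod p) ∈ W.image x then p / c else 0, fun n => by simp, ?_,
    fun n => ?_, fun n hn => ?_, fun a ha => ?_⟩
  · simp only [Int.cast_natCast]
    rw [hsum fun _ => (p : ℝ) / c, sum_const, nsmul_eq_mul, ← hc']
    field_simp
  · dsimp only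
    split_ifs
    · exact ⟨by positivity, (div_le_iff₀ c0).2 hc⟩
    · exact ⟨le_rfl, by linarith⟩
  · refine if_neg fun h => ?_
    obtain ⟨v, hv, e⟩ := mem_image.1 h
    refine hx2 v hv ?_
    rw [e, derivative_map, ev, (ZMod.intCast_zmod_eq_zero_iff_dvd _ _).2 hn]
  · have ha' : (a : ZMod p) ≠ 0 := by
      intro h
      have h3 := ha.isUnit_of_dvd' ((ZMod.intCast_zmod_eq_zero_iff_dvd _ _).mp h) dvd_rfl
      rw [Int.isUnit_iff] at h3
      have := hp.two_le
      omega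
    have h1 := hF a ha'
    obtain ⟨S, hS⟩ : ∃ S : ℂ, S = ∑ v ∈ W, ZMod.stdAddChar ((a : ZMod p) * v) := ⟨_, rfl⟩
    have h2 : (starRingEnd ℂ) S = S := by
      rw [hS, map_sum]
      refine sum_nbij' (fun v => -v) (fun v => -v) hs hs (fun _ _ => neg_neg _)
        (fun _ _ => neg_neg _) fun v _ => ?_
      rw [mul_neg, AddChar.map_neg_eq_conj]
    rw [← hS] at h1
    have h3 := Complex.conj_eq_iff_re.1 h2
    refine ⟨S.re / c, ?_, ?_⟩
    · have h4 : (p : ℝ) ^ (3 / 4 : ℝ) = (p : ℝ) ^ (-(1 / 4) : ℝ) * p := by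
        rw [← Real.rpow_add_one hpR.ne']
        norm_num
      have h5 : 0 < (p : ℝ) ^ (-(1 / 4) : ℝ) := Real.rpow_pos_of_pos hpR _
      rw [abs_div, abs_of_pos c0, div_le_iff₀ c0]
      calc |S.re| ≤ B * ((p : ℝ) ^ (-(1 / 4) : ℝ) * p) := h4 ▸ (Complex.abs_re_le_norm S).trans h1
        _ ≤ B * ((p : ℝ) ^ (-(1 / 4) : ℝ) * (B * c)) := by gcongr
        _ = _ := by ring
    · have e3 : ∀ t ∈ range p,
          ((if ((t : ℤ) : ZMod p) ∈ W.image x then (p : ℝ) / c else 0 : ℝ) : ℂ) * ph g a p (t : ℤ) =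
          if (t : ZMod p) ∈ W.image x then (p / c : ℂ) * ZMod.stdAddChar
            ((a : ZMod p) * (g.map (Int.castRingHom (ZMod p))).eval (t : ZMod p)) else 0 := by
        intro t _
        rw [ph_qa, Int.cast_mul, ← ev, Int.cast_natCast]
        split_ifs <;> simp
      have hpC : (p : ℂ) ≠ 0 := by exact_mod_cast hp.ne_zero
      have hcC : (c : ℂ) ≠ 0 := by exact_mod_cast c0.ne'
      unfold av
      rw [sum_congr rfl e3, hsum fun y => (p / c : ℂ) * ZMod.stdAddChar
        ((a : ZMod p) * (g.map (Int.castRingHom (ZMod p))).eval y),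
        sum_congr rfl fun v hv => by rw [hx1 v hv], ← mul_sum, ← hS, Complex.ofReal_div, h3]
      field_simp

end Vale.Agent.P042.S
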