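import Vale.Agent.P042.K.GenA
import Vale.Agent.P042.S.Quad

/-! # P042 K/GenB (TASK; helper names end with _gnb): weights at one prime, any degree; copy `kill_quad`, `good2`, `bad` of S/Quad (`phase_qu`, `one_qu`, `sum_qu` can be reused).
`kill_gen`: `g (n + y) = g n + g' n * y + k * y ^ 2` (`Polynomial.binomExpansion`).  `good4`: `ε = B ^ 2 p ^ (-1 / 4) ≤ 1` as `B ^ 8 ≤ p`, `B ≤ B ^ 8 ≤ p`; `sub_dvd_eval_sub`.
`bad_gen`: `p ^ u ∣ g n` from `hg 0 n`; for `j = u + i + 1` use `hg n (p ^ i t)`. -/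

namespace Vale.Agent.P042.S

open Finset Polynomial

variable {g : ℤ[X]} {p : ℕ}

theorem kill_gen (hp : p.Prime) {ω : ℤ → ℝ} (hω : Function.Periodic ω (p : ℤ))
    (h0 : ∀ n, (p : ℤ) ∣ (derivative g).eval n → ω n = 0) (j : ℕ) {a : ℤ} (ha : IsCoprime a p) :
    (av (p ^ (j + 2)) fun n => ω n * ph g a (p ^ (j + 2)) n) = 0 := by
  have hω' : ∀ n k : ℤ, ω (n + k * p) = ω n := fun n k => hω.int_mul k n
  refine av_kill (fun n => ?_) hp.pos ((p : ℤ) ^ (j + 1)) fun n => ?_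
  · have h1 : n + ((p ^ (j + 2) : ℕ) : ℤ) = n + (p : ℤ) ^ (j + 1) * p := by
      push_cast
      ring
    rw [ph_per g a (p ^ (j + 2)) n, h1, hω']
  · have h1 : ∀ t ∈ range p, (ω (n + (p : ℤ) ^ (j + 1) * t) : ℂ) *
        ph g a (p ^ (j + 2)) (n + (p : ℤ) ^ (j + 1) * t) = ω n * ph g a (p ^ (j + 2)) n *
          ee ((((t : ℤ) * (a * (derivative g).eval n) : ℤ) : ℝ) / p) := by
      intro t _
      have h2 : n + (p : ℤ) ^ (j + 1) * t = n + ((p : ℤ) ^ j * t) * p := by ring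
      obtain ⟨k, hk⟩ := g.binomExpansion n ((p : ℤ) ^ (j + 1) * t)
      rw [phase_qu (n := n) (r := p ^ (j + 1)) (t * (a * (derivative g).eval n)) (pow_succ' _ _)
        hp.ne_zero (pow_ne_zero _ hp.ne_zero)
        ⟨a * k * p ^ j * t ^ 2, by rw [hk]; push_cast; ring⟩, h2, hω', ← mul_assoc]
    rw [sum_congr rfl h1, ← mul_sum]
    by_cases hx : (p : ℤ) ∣ (derivative g).eval n
    · rw [h0 n hx]
      simp
    · rw [sum_qu hp ha hx, mul_zero]

theorem good4 [Fact p.Prime] {B : ℝ} (h : SymF (g.map (Int.castRingHom (ZMod p))) B)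
    (hB : B ^ 8 ≤ p) {ρ : ℤ} (hρ : (p : ℤ) ∣ g.eval ρ) (hρ' : ¬ (p : ℤ) ∣ (derivative g).eval ρ) :
    ∃ ω : ℤ → ℝ, Function.Periodic ω (p : ℤ) ∧ ∑ t ∈ range p, ω t = p ∧
      (∀ n, 0 ≤ ω n ∧ ω n ≤ p) ∧ ∀ (j : ℕ) (a : ℤ), IsCoprime a p → ∃ κ : ℝ, 0 ≤ κ ∧
        κ ≤ 2 * B ^ 2 * ((p ^ (j + 1) : ℕ) : ℝ) ^ (-(1 / 4) : ℝ) ∧
        (av (p ^ (j + 1)) fun n => ω n * ph g a (p ^ (j + 1)) n) = κ := by
  have hp : p.Prime := Fact.out
  obtain ⟨hB1, ω, hper, hsum, hb, h0, hκ⟩ := good3 h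
  have hp0 : (0 : ℝ) < p := by exact_mod_cast hp.pos
  have hBp : B ≤ p := (le_self_pow₀ hB1 (by norm_num)).trans hB
  obtain ⟨ε, hε⟩ : ∃ ε : ℝ, ε = B ^ 2 * (p : ℝ) ^ (-(1 / 4) : ℝ) := ⟨_, rfl⟩
  have hε0 : 0 ≤ ε := by rw [hε]; positivity
  have hε1 : ε ≤ 1 := by
    have h1 : (B ^ 2) ^ (4 : ℝ) ≤ p := by
      rw [show (4 : ℝ) = (4 : ℕ) by norm_num, Real.rpow_natCast, ← pow_mul]
      exact hB
    have h2 := Real.rpow_le_rpow (by positivity) h1 (by norm_num : (0 : ℝ) ≤ 1 / 4)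
    rw [← Real.rpow_mul (by positivity), show (4 : ℝ) * (1 / 4) = 1 by norm_num,
      Real.rpow_one] at h2
    rw [hε, Real.rpow_neg hp0.le, ← div_eq_mul_inv, div_le_one (by positivity)]
    exact h2
  obtain ⟨δ, hδ⟩ : ∃ δ : ℤ → ℝ, δ = fun n => if (p : ℤ) ∣ n - ρ then (p : ℝ) else 0 := ⟨_, rfl⟩
  have hδc : ∀ n, (δ n : ℂ) = if (p : ℤ) ∣ n - ρ then (p : ℂ) else 0 := by
    intro n
    rw [hδ]
    dsimp only
    split_ifs <;> simp
  have hδp : Function.Periodic δ (p : ℤ) := by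
    intro n
    have h1 : n + p - ρ = n - ρ + p := by ring
    simp only [hδ, h1, dvd_add_self_right]
  have hδb : ∀ n, 0 ≤ δ n ∧ δ n ≤ p := by
    intro n
    rw [hδ]
    dsimp only
    split_ifs <;> constructor <;> linarith
  have hδs : ∑ t ∈ range p, δ t = p := by
    have h1 := av_dvd (f := fun _ => (1 : ℂ)) (q := p) (fun _ => rfl) hp.pos dvd_rfl ρ
    rw [av_const hp.pos] at h1
    simp only [← hδc, mul_one, av] at h1
    have h2 : (p : ℂ) ≠ 0 := by exact_mod_cast hp.ne_zero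
    rw [div_eq_one_iff_eq h2] at h1
    exact_mod_cast h1
  have hper' : Function.Periodic (fun n => (1 - ε) * ω n + ε * δ n) (p : ℤ) := fun n => by
    simp only [hper n, hδp n]
  refine ⟨fun n => (1 - ε) * ω n + ε * δ n, hper', ?_, fun n => ?_, fun j a ha => ?_⟩
  · rw [sum_add_distrib, ← mul_sum, ← mul_sum, hsum, hδs]
    ring
  · obtain ⟨h1, h2⟩ := hb n
    obtain ⟨h3, h4⟩ := hδb n
    have h5 : (1 - ε) * ω n ≤ (1 - ε) * p := mul_le_mul_of_nonneg_left (by linarith) (by linarith)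
    have h6 : ε * δ n ≤ ε * p := mul_le_mul_of_nonneg_left h4 hε0
    have h7 : 0 ≤ (1 - ε) * ω n := mul_nonneg (by linarith) h1
    have h8 : 0 ≤ ε * δ n := mul_nonneg hε0 h3
    constructor <;> linarith
  · rcases j with _ | j
    · obtain ⟨κ, hk, he⟩ := hκ a ha
      rw [← hε] at hk
      obtain ⟨hk1, hk2⟩ := abs_le.1 hk
      have h1 := av_dvd (ph_per g a p) hp.pos dvd_rfl ρ
      have h2 : ∀ n : ℤ, ph g a p (ρ + p * n) = 1 := fun n => one_qu (Dvd.dvd.mul_left (by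
        have h4 := (Dvd.intro n (add_sub_cancel_left ρ (p * n)).symm).trans
          (sub_dvd_eval_sub (ρ + p * n) ρ g)
        simpa using dvd_add h4 hρ) a)
      simp only [h2, av_const hp.pos, ← hδc] at h1
      refine ⟨(1 - ε) * κ + ε, by nlinarith, ?_, ?_⟩
      · rw [zero_add, pow_one, mul_assoc, ← hε]
        nlinarith
      · rw [zero_add, pow_one]
        have h3 : (av p fun n => (((1 - ε) * ω n + ε * δ n : ℝ) : ℂ) * ph g a p n) =
            (1 - ε) * (av p fun n => ω n * ph g a p n) + ε * av p fun n => δ n * ph g a p n := by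
          simp only [av, ← mul_div_assoc, ← add_div, mul_sum, ← sum_add_distrib]
          congr 1
          exact sum_congr rfl fun t _ => by push_cast; ring
        rw [h3, he, h1]
        push_cast
        ring
    · refine ⟨0, le_rfl, by positivity, ?_⟩
      rw [Complex.ofReal_zero]
      refine kill_gen hp hper' (fun n hn => ?_) j ha
      have h1 : ¬ (p : ℤ) ∣ n - ρ := fun h2 => hρ' (by
        simpa using dvd_sub hn (h2.trans (sub_dvd_eval_sub n ρ (derivative g))))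
      simp only [h0 n hn, hδ, if_neg h1, mul_zero, add_zero]

theorem bad_gen (hp : p.Prime) {u : ℕ} {l : ℤ} (hl : ¬ (p : ℤ) ∣ l)
    (hg : ∀ n s : ℤ, (p : ℤ) ^ (u + 1) * s ∣ g.eval (n + s) - g.eval n - p ^ u * l * s)
    (h0 : (p : ℤ) ^ u ∣ g.eval 0) (j : ℕ) {a : ℤ} (ha : IsCoprime a p) :
    NN (av (p ^ j) (ph g a (p ^ j))) := by
  rcases le_or_gt j u with hj | hj
  · have h1 : ph g a (p ^ j) = fun _ => 1 := funext fun n => one_qu (Dvd.dvd.mul_left (by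
      have h2 := ((pow_dvd_pow (p : ℤ) (Nat.le_succ u)).trans (dvd_mul_right _ n)).trans (hg 0 n)
      have h3 : (p : ℤ) ^ u ∣ p ^ u * l * n := (dvd_mul_right _ l).mul_right n
      have h4 := dvd_add (dvd_add h2 h3) h0
      rw [zero_add, sub_add_cancel, sub_add_cancel] at h4
      rw [Nat.cast_pow]
      exact (pow_dvd_pow _ hj).trans h4) a)
    exact ⟨1, zero_le_one, by rw [h1, av_const (pow_pos hp.pos _), Complex.ofReal_one]⟩
  · obtain ⟨i, rfl⟩ := Nat.exists_eq_add_of_lt hj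
    refine ⟨0, le_rfl, ?_⟩
    rw [Complex.ofReal_zero]
    refine av_kill (ph_per g a _) hp.pos ((p : ℤ) ^ i) fun n => ?_
    have h1 : ∀ t ∈ range p, ph g a (p ^ (u + i + 1)) (n + (p : ℤ) ^ i * t) =
        ph g a (p ^ (u + i + 1)) n * ee ((((t : ℤ) * (a * l) : ℤ) : ℝ) / p) := fun t _ => by
      obtain ⟨k, hk⟩ := hg n ((p : ℤ) ^ i * t)
      exact phase_qu (r := p ^ (u + i)) (t * (a * l)) (pow_succ' _ _) hp.ne_zero
        (pow_ne_zero _ hp.ne_zero) ⟨a * t * k, by push_cast; linear_combination a * hk⟩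
    rw [sum_congr rfl h1, ← mul_sum, sum_qu hp ha hl, mul_zero]

end Vale.Agent.P042.S
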