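import Vale.Agent.P042.K.Defs

/-! # P042 K/KumA (TASK; helper names end with _ka): the multiplication matrix.
`kM_rel`: for `i < D`, `y ^ i * y ^ j` is `y ^ (i + j)` or `φ f * y ^ (i + j - D)`; reindex (`Fin.sum_univ_eq_sum_range`, split `range D` at `D - j` and at `j`, `Finset.sum_range_add`-like lemmas, `sum_Ico_eq_sum_range`, or `sum_bij` with `l = (i + j) % D`).
`kM_det_dvd`: in `S = AdjoinRoot P` (or `Ideal.Quotient`), `(kM.map φ).mulVec (fun l => y ^ l) = 0`; multiply by the adjugate (`Matrix.adjugate_mul`, `Matrix.mulVec_mulVec`, `RingHom.map_det`), coordinate `0`; `AdjoinRoot.mk_eq_zero`.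
`kM_natDegree`: `Matrix.det_apply'`, `natDegree_sum_le_of_forall_le`, `natDegree_prod_le`. -/

namespace Vale.Agent.P042.S

open Finset Polynomial

theorem kM_rel {R S : Type} [CommRing R] [CommRing S] (φ : R →+* S) {D : ℕ} {f : R} (r : ℕ → R)
    {y : S} (hy : y ^ D = φ f) (j : Fin D) :
    (∑ i ∈ range D, φ (r i) * y ^ i) * y ^ j.val = ∑ l : Fin D, φ (kM D f r j l) * y ^ l.val := by
  obtain ⟨j, hj⟩ := j
  obtain ⟨k, rfl⟩ : ∃ k, D = j + k := ⟨D - j, by omega⟩
  have e := Fin.sum_univ_eq_sum_range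
    (fun l => φ (if j ≤ l then r (l - j) else f * r (j + k + l - j)) * y ^ l) (j + k)
  simp only [kM, Matrix.of_apply]
  have e2 : ∑ i ∈ range (j + k), φ (r i) * y ^ i =
      ∑ i ∈ range j, φ (r (k + i)) * y ^ (k + i) + ∑ i ∈ range k, φ (r i) * y ^ i := by
    rw [add_comm j k, sum_range_add, add_comm]
  rw [e, e2, sum_range_add, add_mul, sum_mul, sum_mul]
  refine congrArg₂ _ (sum_congr rfl fun x hx => ?_) (sum_congr rfl fun x _ => ?_)
  · have hx' := mem_range.mp hx
    rw [if_neg (by omega), map_mul, ← hy, show j + k + x - j = k + x by omega]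
    ring
  · rw [if_pos (by omega), show j + x - j = x by omega]
    ring

theorem kM_det_dvd {F : Type} [Field F] {D : ℕ} (hD : 0 < D) {f y P : F[X]} (r : ℕ → F[X])
    (h1 : P ∣ y ^ D - f) (h2 : P ∣ ∑ i ∈ range D, r i * y ^ i) : P ∣ (kM D f r).det := by
  rw [← AdjoinRoot.mk_eq_zero] at h1 h2 ⊢
  set φ := AdjoinRoot.mk P
  have hy : φ y ^ D = φ f := by
    rw [map_sub, map_pow] at h1
    exact sub_eq_zero.mp h1
  have h3 : ∑ i ∈ range D, φ (r i) * φ y ^ i = 0 := by
    simpa only [map_sum, map_mul, map_pow] using h2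
  have h4 : ((kM D f r).map φ).mulVec (fun l => φ y ^ l.val) = 0 := by
    funext j
    have := kM_rel φ r hy j
    rw [h3, zero_mul] at this
    simpa [Matrix.mulVec, dotProduct] using this.symm
  have h5 := congrArg (((kM D f r).map φ).adjugate.mulVec) h4
  rw [Matrix.mulVec_mulVec, Matrix.adjugate_mul, Matrix.mulVec_zero, Matrix.smul_mulVec,
    Matrix.one_mulVec] at h5
  have h6 := congrFun h5 ⟨0, hD⟩
  rw [RingHom.map_det]
  simpa using h6

theorem kM_natDegree {F : Type} [Field F] {D A m : ℕ} {f : F[X]} {r : ℕ → F[X]}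
    (hf : f.natDegree ≤ m) (hr : ∀ i, (r i).natDegree ≤ A) :
    (kM D f r).det.natDegree ≤ D * (A + m) := by
  have he : ∀ j l, (kM D f r j l).natDegree ≤ A + m := by
    intro j l
    simp only [kM, Matrix.of_apply]
    split_ifs
    · exact (hr _).trans (Nat.le_add_right _ _)
    · refine natDegree_mul_le.trans ?_
      have := hr (D + l.val - j.val)
      omega
  rw [Matrix.det_apply']
  refine natDegree_sum_le_of_forall_le _ _ fun σ _ => ?_
  refine natDegree_mul_le.trans ?_
  rw [natDegree_intCast, zero_add]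
  refine (natDegree_prod_le _ _).trans ?_
  refine (sum_le_card_nsmul _ _ (A + m) fun i _ => he _ _).trans ?_
  simp

end Vale.Agent.P042.S
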