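import Vale.Agent.P042.K.KumA

/-! # P042 K/KumB (TASK; helper names end with _kb): the determinant does not vanish.
`K = RatFunc F` (or `FractionRing F[X]`), `L = AlgebraicClosure K`, `y ∈ L` with `y ^ D = c f` (`IsAlgClosed.exists_pow_nat_eq`).
`kum_deg`: let `g = minpoly K y`, `e = natDegree g`, `0 < e ≤ D` (`g ∣ X ^ D - C a`). All roots of `g` in `L` are `ζ ^ i y` (`IsPrimitiveRoot.eq_pow_of_pow_eq_one` for the quotient; `y ≠ 0`), so `g.coeff 0 = ± ζ ^ n y ^ e`
(`Splits.coeff_zero_eq_prod_roots_of_monic`-like; a multiset induction: a product of `e` elements of `{ζ ^ i y}` is `ζ ^ n y ^ e`), hence `y ^ e = z ∈ K`, `z ^ D = a ^ e`; so `e = D`.  A nonzero polynomial of degree `< D` does not vanish at `y` (`minpoly.degree_le_of_ne_zero`). -/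

namespace Vale.Agent.P042.S

open Finset Polynomial

theorem kum_deg {K L : Type} [Field K] [Field L] [Algebra K L] [IsAlgClosed L] {D : ℕ} (hD : 0 < D)
    {ζ : K} (hζ : IsPrimitiveRoot ζ D) {a : K} (ha0 : a ≠ 0)
    (ha : ∀ e : ℕ, 0 < e → e < D → ∀ z : K, z ^ D ≠ a ^ e) {y : L} (hy : y ^ D = algebraMap K L a)
    (u : ℕ → K) (hu : ∑ i ∈ range D, algebraMap K L (u i) * y ^ i = 0) : ∀ i, i < D → u i = 0 := by
  have h0 : aeval y (X ^ D - C a) = 0 := by rw [map_sub, map_pow, aeval_X, aeval_C, hy, sub_self]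
  have hi : IsIntegral K y := ⟨_, monic_X_pow_sub_C a hD.ne', h0⟩
  have hm := (minpoly.monic hi).map (algebraMap K L)
  have hs := IsAlgClosed.splits ((minpoly K y).map (algebraMap K L))
  have hc := hs.natDegree_eq_card_roots
  have hp := hs.coeff_zero_eq_prod_roots_of_monic hm
  rw [natDegree_map] at hc hp
  have hr : ∀ r ∈ ((minpoly K y).map (algebraMap K L)).roots, r ^ D = algebraMap K L a := by
    intro r hr
    obtain ⟨g, hg⟩ := minpoly.dvd K y h0
    have h1 : aeval r (minpoly K y) = 0 := by
      rw [← eval_map_algebraMap]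
      exact isRoot_of_mem_roots hr
    have h2 := congrArg (aeval r) hg
    rwa [map_mul, h1, zero_mul, map_sub, map_pow, aeval_X, aeval_C, sub_eq_zero] at h2
  have hD' : D ≤ (minpoly K y).natDegree := by
    refine le_of_not_gt fun hlt => ha _ (minpoly.natDegree_pos hi) hlt
      ((-1) ^ (minpoly K y).natDegree * (minpoly K y).coeff 0) ((algebraMap K L).injective ?_)
    rw [map_pow, map_mul, map_pow, map_neg, map_one, ← coeff_map, hp, ← mul_assoc, ← mul_pow,
      neg_mul_neg, one_mul, one_pow, one_mul, ← Multiset.map_id' (roots _),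
      ← Multiset.prod_map_pow, Multiset.map_congr rfl hr, Multiset.map_const',
      Multiset.prod_replicate, ← hc, map_pow]
  have hP : ∑ i ∈ range D, monomial i (u i) = 0 := by
    by_contra hne
    have h1 := minpoly.degree_le_of_ne_zero K y hne (by
      rw [map_sum, ← hu]
      exact sum_congr rfl fun i _ => aeval_monomial y)
    have h2 : (∑ i ∈ range D, monomial i (u i)).degree < D :=
      mem_degreeLT.1 (Submodule.sum_mem _ fun i hi => mem_degreeLT.2
        ((degree_monomial_le i _).trans_lt (by exact_mod_cast mem_range.1 hi)))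
    have h3 := h1.trans_lt h2
    rw [degree_eq_natDegree (minpoly.ne_zero hi)] at h3
    exact absurd hD' (not_le.2 (by exact_mod_cast h3))
  intro i hi
  have h := congrArg (fun p : K[X] => p.coeff i) hP
  simpa only [finsetSum_coeff, coeff_monomial, sum_ite_eq', mem_range, hi, if_true,
    coeff_zero] using h

end Vale.Agent.P042.S
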