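import Vale.Agent.P042.K.KumB

/-! # P042 K/KumC (TASK; helper names end with _kc): the determinant does not vanish.
`K = RatFunc F` (or `FractionRing F[X]`), `L = AlgebraicClosure K`, `y ∈ L` with `y ^ D = c f` (`IsAlgClosed.exists_pow_nat_eq`), the primitive root is mapped to `K` (`IsPrimitiveRoot.map_of_injective`).
`kM_det_ne`: if the determinant vanishes there is `u ≠ 0` over `K` with `vecMul u M = 0` (`Matrix.exists_vecMul_eq_zero_iff`); by `kM_rel`, `(∑ r i y ^ i) * (∑ u j y ^ j) = 0` in `L`; both factors are nonzero by `kum_deg`;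
its hypothesis follows from `NPow` by writing `z = a / b` (`IsFractionRing.div_surjective`). -/

namespace Vale.Agent.P042.S

open Finset Polynomial

theorem aux_kc {F K L : Type} [Field F] [Field K] [Field L] [Algebra F[X] K]
    [IsFractionRing F[X] K] [Algebra K L] [IsAlgClosed L] {D : ℕ} (hD : 0 < D) {ζ : F}
    (hζ : IsPrimitiveRoot ζ D) {f : F[X]} (hf0 : f ≠ 0) (hf : NPow D f) {c : F} (hc : c ≠ 0)
    {y : L} (hy : y ^ D = algebraMap K L (algebraMap F[X] K (C c * f))) (u : ℕ → F[X])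
    (hu : ∑ i ∈ range D, algebraMap K L (algebraMap F[X] K (u i)) * y ^ i = 0) :
    ∀ i, i < D → u i = 0 := by
  have hi := IsFractionRing.injective F[X] K
  have h1 : IsPrimitiveRoot (((algebraMap F[X] K).comp C) ζ) D :=
    hζ.map_of_injective ((algebraMap F[X] K).comp C).injective
  intro i hi'
  refine hi ((kum_deg hD h1 ?_ (fun e he he' z hz => ?_) hy _ hu i hi').trans (map_zero _).symm)
  · exact (map_ne_zero_iff _ hi).2 (mul_ne_zero (C_ne_zero.2 hc) hf0)
  · obtain ⟨a, b, hb, rfl⟩ := IsFractionRing.div_surjective F[X] z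
    have hb0 := nonZeroDivisors.ne_zero hb
    refine hf e he he' c a b hc hb0 (hi ?_)
    rw [div_pow, div_eq_iff (pow_ne_zero _ ((map_ne_zero_iff _ hi).2 hb0))] at hz
    rw [map_pow, hz, map_mul _ _ (b ^ D), map_pow, map_pow]

theorem kM_det_ne {F : Type} [Field F] {D : ℕ} (hD : 0 < D) {ζ : F} (hζ : IsPrimitiveRoot ζ D)
    {f : F[X]} (hf0 : f ≠ 0) (hf : NPow D f) {c : F} (hc : c ≠ 0) {r : ℕ → F[X]}
    (hr : ∃ i, i < D ∧ r i ≠ 0) : (kM D (C c * f) r).det ≠ 0 := by
  intro h0
  obtain ⟨u, hu0, hu⟩ := Matrix.exists_vecMul_eq_zero_iff.2 h0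
  let K := FractionRing F[X]
  let L := AlgebraicClosure K
  let φ : F[X] →+* L := (algebraMap K L).comp (algebraMap F[X] K)
  obtain ⟨y, hy⟩ := IsAlgClosed.exists_pow_nat_eq (φ (C c * f)) hD
  have h1 : (∑ i ∈ range D, φ (r i) * y ^ i) * ∑ j : Fin D, φ (u j) * y ^ j.val = 0 := by
    have h2 : ∀ l : Fin D, ∑ j : Fin D, φ (u j) * φ (kM D (C c * f) r j l) = 0 := fun l => by
      have h3 := congrArg φ (congrFun hu l)
      simpa [Matrix.vecMul, dotProduct] using h3
    calc _ = ∑ j : Fin D, ∑ l : Fin D, φ (u j) * φ (kM D (C c * f) r j l) * y ^ l.val := by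
          rw [mul_sum]
          refine sum_congr rfl fun j _ => ?_
          rw [mul_left_comm, kM_rel φ r hy, mul_sum]
          exact sum_congr rfl fun l _ => (mul_assoc _ _ _).symm
      _ = 0 := by
          rw [sum_comm]
          exact sum_eq_zero fun l _ => by rw [← sum_mul, h2, zero_mul]
  rcases mul_eq_zero.1 h1 with h2 | h2
  · obtain ⟨i, hi, hi'⟩ := hr
    exact hi' (aux_kc (K := K) hD hζ hf0 hf hc hy r h2 i hi)
  · refine hu0 (funext fun j => ?_)
    have h3 := aux_kc (K := K) hD hζ hf0 hf hc hy (fun i => if h : i < D then u ⟨i, h⟩ else 0)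
      (by rw [← h2, sum_range]; exact sum_congr rfl fun i _ => by rw [dif_pos i.2]; rfl) j j.2
    simpa using h3

end Vale.Agent.P042.S
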