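import Vale.Agent.P042.K.Defs

/-! # P042 K/SRZ (TASK; helper names end with _sr): simple roots.
`sr_bez`: `d ∣ q ∣ h t` and `d ∣ h' t` give `d ∣ Δ`.
`sr_cub`: with `b₀ = β ^ 2 - 3 α γ`, `Y = 3 α t + β`, `E = 27 α ^ 2 δ + 2 β ^ 3 - 9 α β γ`: `3 α h'(t) = Y ^ 2 - b₀`, `27 α ^ 2 h(t) = Y ^ 3 - 3 b₀ Y + E`, `27 α ^ 2 discr = 4 b₀ ^ 3 - E ^ 2`; modulo `d`: `b₀ ≡ Y ^ 2`, `E ≡ 2 Y ^ 3`, so `d ∣ 27 α ^ 2 discr`
(take `Δ = 27 α ^ 2 discr`; write `b₀ = Y ^ 2 - d k₁`, `E = 3 b₀ Y - Y ^ 3 + d k₂`).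
`sr_bin`: `k u h(t) - (u t + w) h'(t) = k u c` (`k = j + 1`).  `cub_eq`: `Polynomial.ext` or `as_sum_range`.
`cub_simple`: if both vanish then `E ^ 2 = 0`, `Y ^ 3 = 0`, `3 α h'(t) = 0`. -/

namespace Vale.Agent.P042.S

open Finset Polynomial

theorem sr_bez {h : ℤ[X]} (hint : ∀ q : ℕ, 1 ≤ q → ∃ t : ℤ, (q : ℤ) ∣ h.eval t) {Δ : ℤ} (hΔ : Δ ≠ 0)
    (H : ∀ d t : ℤ, d ∣ h.eval t → d ∣ (derivative h).eval t → d ∣ Δ) : SR h := by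
  refine ⟨Δ, hΔ, fun q hq => ?_⟩
  obtain ⟨t, ht⟩ := hint q hq
  exact ⟨t, ht, fun d h1 h2 => H d t (h1.trans ht) h2⟩

theorem sr_root {h : ℤ[X]} {t : ℤ} (h1 : h.eval t = 0) (h2 : (derivative h).eval t ≠ 0) : SR h := by
  exact ⟨_, h2, fun q _ => ⟨t, by rw [h1]; exact dvd_zero _, fun d _ h3 => h3⟩⟩

theorem ev_sr (α β γ δ t : ℤ) :
    (Cubic.toPoly ⟨α, β, γ, δ⟩).eval t = α * t ^ 3 + β * t ^ 2 + γ * t + δ := by
  simp [Cubic.toPoly]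

theorem dev_sr (α β γ δ t : ℤ) :
    (derivative (Cubic.toPoly ⟨α, β, γ, δ⟩)).eval t = 3 * α * t ^ 2 + 2 * β * t + γ := by
  simp [Cubic.toPoly]
  ring

theorem discr_sr (α β γ δ t : ℤ) : 27 * α ^ 2 * Cubic.discr ⟨α, β, γ, δ⟩ =
    (3 * α * t ^ 2 + 2 * β * t + γ) * (3 * α * (3 * (3 * α * t + β) ^ 2 *
      (3 * α * (3 * α * t ^ 2 + 2 * β * t + γ)) - 4 * (3 * α * (3 * α * t ^ 2 + 2 * β * t + γ)) ^ 2)) +
    (α * t ^ 3 + β * t ^ 2 + γ * t + δ) * (27 * α ^ 2 * (-4 * (3 * α * t + β) ^ 3 -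
      27 * α ^ 2 * (α * t ^ 3 + β * t ^ 2 + γ * t + δ) +
      6 * (3 * α * (3 * α * t ^ 2 + 2 * β * t + γ)) * (3 * α * t + β))) := by
  simp only [Cubic.discr]
  ring

theorem sr_cub {α β γ δ : ℤ} (hα : α ≠ 0) (hΔ : Cubic.discr ⟨α, β, γ, δ⟩ ≠ 0)
    (hint : ∀ q : ℕ, 1 ≤ q → ∃ t : ℤ, (q : ℤ) ∣ (Cubic.toPoly ⟨α, β, γ, δ⟩).eval t) :
    SR (Cubic.toPoly ⟨α, β, γ, δ⟩) := by
  refine sr_bez hint (Δ := 27 * α ^ 2 * Cubic.discr ⟨α, β, γ, δ⟩)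
    (mul_ne_zero (mul_ne_zero (by norm_num) (pow_ne_zero _ hα)) hΔ) fun d t h1 h2 => ?_
  rw [ev_sr] at h1
  rw [dev_sr] at h2
  rw [discr_sr α β γ δ t]
  exact dvd_add (h2.mul_right _) (h1.mul_right _)

theorem sr_bin {α u w c : ℤ} {k : ℕ} (hk : 1 ≤ k) (hu : u ≠ 0) (hc : c ≠ 0)
    (hint : ∀ q : ℕ, 1 ≤ q → ∃ t : ℤ, (q : ℤ) ∣ (C α * (C u * X + C w) ^ k + C c).eval t) :
    SR (C α * (C u * X + C w) ^ k + C c) := by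
  obtain ⟨j, rfl⟩ : ∃ j, k = j + 1 := ⟨k - 1, by omega⟩
  refine sr_bez hint (Δ := ((j : ℤ) + 1) * u * c)
    (mul_ne_zero (mul_ne_zero (by positivity) hu) hc) fun d t h1 h2 => ?_
  have e1 : (C α * (C u * X + C w) ^ (j + 1) + C c).eval t = α * (u * t + w) ^ (j + 1) + c := by
    simp only [eval_add, eval_mul, eval_pow, eval_C, eval_X]
  have e2 : (derivative (C α * (C u * X + C w) ^ (j + 1) + C c)).eval t =
      α * (((j : ℤ) + 1) * (u * t + w) ^ j * u) := by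
    rw [derivative_add, derivative_C, add_zero, derivative_C_mul, derivative_pow_succ,
      derivative_add, derivative_C, add_zero, derivative_C_mul_X]
    simp only [eval_add, eval_mul, eval_pow, eval_C, eval_X]
  rw [e1] at h1
  rw [e2] at h2
  have e3 : ((j : ℤ) + 1) * u * c = ((j : ℤ) + 1) * u * (α * (u * t + w) ^ (j + 1) + c) -
      (u * t + w) * (α * (((j : ℤ) + 1) * (u * t + w) ^ j * u)) := by ring
  rw [e3]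
  exact dvd_sub (h1.mul_left _) (h2.mul_left _)

theorem cub_eq {h : ℤ[X]} (hk : h.natDegree = 3) :
    h = Cubic.toPoly ⟨h.coeff 3, h.coeff 2, h.coeff 1, h.coeff 0⟩ := by
  conv_lhs => rw [h.as_sum_range_C_mul_X_pow, hk]
  simp only [Finset.sum_range_succ, Finset.sum_range_zero, Cubic.toPoly]
  ring

theorem cub_simple {α β γ δ t : ℤ} (hα : α ≠ 0) (h1 : (Cubic.toPoly ⟨α, β, γ, δ⟩).eval t = 0)
    (h2 : (derivative (Cubic.toPoly ⟨α, β, γ, δ⟩)).eval t ≠ 0) :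
    Cubic.discr ⟨α, β, γ, δ⟩ ≠ 0 ∨ β ^ 2 - 3 * α * γ ≠ 0 := by
  by_contra hn
  push Not at hn
  obtain ⟨n1, n2⟩ := hn
  rw [ev_sr] at h1
  rw [dev_sr] at h2
  have e := discr_sr α β γ δ t
  have e1 : (3 * α * t + β) ^ 2 = 3 * α * (3 * α * t ^ 2 + 2 * β * t + γ) := by
    linear_combination n2
  rw [n1, h1, e1] at e
  have e2 : (3 * α * (3 * α * t ^ 2 + 2 * β * t + γ)) ^ 3 = 0 := by linear_combination e
  exact mul_ne_zero (mul_ne_zero (by norm_num) hα) h2 (pow_eq_zero_iff (by norm_num) |>.1 e2)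

end Vale.Agent.P042.S
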