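import Vale.Agent.P042.K.Cub

/-! # P042 K/SymZ (TASK; helper names end with _sz): `Sym` for integer cubics and binomials.
`m = p₀ ! * natAbs (α * Δ)` with `Δ` the nonzero one of the two integers; a prime `p ∤ m` is larger than `p₀` (`Nat.dvd_factorial`) and does not divide `α`, `Δ` (`ZMod.intCast_zmod_eq_zero_iff_dvd`); `Cubic.map_toPoly`, or unfold `Cubic.toPoly`, `Cubic.discr` and `push_cast`.
Binomial: `m = p₀ ! * natAbs (α u c)`; the image is `C (α u ^ k) * (X - C (-w / u)) ^ k + C c`. -/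

namespace Vale.Agent.P042.S

open Finset Polynomial

theorem sym_sz {h : ℤ[X]} {B : ℝ} (p₀ : ℕ) {M : ℤ} (hM : M ≠ 0)
    (H : ∀ (p : ℕ) [Fact p.Prime], p₀ ≤ p → (M : ZMod p) ≠ 0 →
      SymF (h.map (Int.castRingHom (ZMod p))) B) : Sym h := by
  refine ⟨B, p₀.factorial * M.natAbs, Nat.mul_pos p₀.factorial_pos (Int.natAbs_pos.2 hM),
    fun p hp hd => H p ?_ fun h0 => hd ?_⟩
  · by_contra h1
    exact hd ((Nat.dvd_factorial hp.out.pos (not_le.1 h1).le).mul_right _)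
  · exact (Int.natCast_dvd.1 ((ZMod.intCast_zmod_eq_zero_iff_dvd M p).1 h0)).mul_left _

theorem sym_cub {α β γ δ : ℤ} (hα : α ≠ 0)
    (h : Cubic.discr ⟨α, β, γ, δ⟩ ≠ 0 ∨ β ^ 2 - 3 * α * γ ≠ 0) :
    Sym (Cubic.toPoly ⟨α, β, γ, δ⟩) := by
  obtain ⟨B, p₀, H⟩ := symF_cub
  have e : ∀ (p : ℕ) [Fact p.Prime], (Cubic.toPoly ⟨α, β, γ, δ⟩).map (Int.castRingHom (ZMod p)) =
      Cubic.toPoly ⟨(α : ZMod p), β, γ, δ⟩ := fun p _ => by
    rw [← Cubic.map_toPoly]; rfl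
  rcases h with h | h
  · refine sym_sz (B := B) p₀ (mul_ne_zero hα h) fun p _ hp h0 => ?_
    rw [Int.cast_mul, mul_ne_zero_iff] at h0
    rw [e]
    refine H p hp _ _ _ _ h0.1 (Or.inl ?_)
    simpa [Cubic.discr] using h0.2
  · refine sym_sz (B := B) p₀ (mul_ne_zero hα h) fun p _ hp h0 => ?_
    rw [Int.cast_mul, mul_ne_zero_iff] at h0
    rw [e]
    refine H p hp _ _ _ _ h0.1 (Or.inr ?_)
    simpa using h0.2

theorem sym_bin {α u w c : ℤ} {k : ℕ} (hk : 1 ≤ k) (hα : α ≠ 0) (hu : u ≠ 0) (hc : c ≠ 0) :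
    Sym (C α * (C u * X + C w) ^ k + C c) := by
  obtain ⟨B, p₀, H⟩ := symF_bin k hk
  refine sym_sz (B := B) p₀ (mul_ne_zero hα (mul_ne_zero hu hc)) fun p _ hp h0 => ?_
  rw [Int.cast_mul, Int.cast_mul, mul_ne_zero_iff, mul_ne_zero_iff] at h0
  have e : (C α * (C u * X + C w) ^ k + C c).map (Int.castRingHom (ZMod p)) =
      C ((α : ZMod p) * u ^ k) * (X - C (-(w : ZMod p) / u)) ^ k + C (c : ZMod p) := by
    have e1 : C (u : ZMod p) * (X - C (-(w : ZMod p) / u)) = C (u : ZMod p) * X + C (w : ZMod p) := by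
      rw [mul_sub, ← C_mul, mul_div_cancel₀ _ h0.2.1, C_neg, sub_neg_eq_add]
    rw [C_mul, C_pow, mul_assoc, ← mul_pow, e1]
    simp only [Polynomial.map_add, Polynomial.map_mul, Polynomial.map_pow, map_C, map_X, eq_intCast (Int.castRingHom (ZMod p))]
  rw [e]
  exact H p hp _ _ _ (mul_ne_zero h0.1 (pow_ne_zero _ h0.2.1)) h0.2.2

end Vale.Agent.P042.S
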