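import Vale.Agent.P042.K.GLoc
import Vale.Agent.P042.K.SymZ
import Vale.Agent.P042.K.SRZ
import Vale.Agent.P042.S.Main

/-! # P042 K/Main: assembly. -/

namespace Vale.Agent.P042.S

open Finset Polynomial

theorem sav_sym {h : ℤ[X]} (hdeg : 2 ≤ h.natDegree) (hlead : 0 < h.leadingCoeff) (h1 : SR h)
    (h2 : Sym h) : Sav h 1 := by
  obtain ⟨r, Q, hQ, C', c, D, hc, hL⟩ := loc_sym (by omega) h1 h2
  obtain ⟨C'', hw⟩ := hL.glob hc
  have hQ' : (Q : ℤ) ≠ 0 := by positivity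
  have h1 : (C (Q : ℤ) * X + C (r : ℤ)).natDegree = 1 := natDegree_linear hQ'
  obtain ⟨c', hc', C₃, H⟩ := hw.sav (half_pos hc) (by rw [natDegree_comp, h1]; omega)
    (by rw [leadingCoeff_comp (by omega), leadingCoeff_linear hQ']; positivity) 1
  refine ⟨c', hc', C₃, fun N A hA hf => H N A hA fun a ha b hb n hn e => ?_⟩
  refine hf a ha b hb (Q * n + r) (by nlinarith) ?_
  rw [e, eval_comp]
  simp

theorem mainK (h : ℤ[X]) (hdeg : 2 ≤ h.natDegree) (hlead : 0 < h.leadingCoeff)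
    (hint : ∀ q : ℕ, 1 ≤ q → ∃ t : ℤ, (q : ℤ) ∣ h.eval t)
    (hcase : (∃ s : ℤ, ∀ x : ℤ, h.eval (s - x) = -h.eval (s + x)) ∨
      (h.natDegree = 2 ∧ h.coeff 1 ^ 2 - 4 * h.coeff 2 * h.coeff 0 ≠ 0) ∨
      (h.natDegree = 3 ∧ (Cubic.discr ⟨h.coeff 3, h.coeff 2, h.coeff 1, h.coeff 0⟩ ≠ 0 ∨
        ∃ t : ℤ, h.eval t = 0 ∧ (derivative h).eval t ≠ 0)) ∨
      ∃ (α u w c : ℤ) (k : ℕ), c ≠ 0 ∧ h = C α * (C u * X + C w) ^ k + C c) : Sav h 1 := by
  rcases hcase with h1 | h1 | ⟨h3, h1⟩ | ⟨α, u, w, c, k, hc, rfl⟩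
  · exact main h hdeg hlead hint (Or.inl h1)
  · exact main h hdeg hlead hint (Or.inr h1)
  · have hα : h.coeff 3 ≠ 0 := by
      rw [← h3]
      exact hlead.ne'
    have e := cub_eq h3
    rcases h1 with h1 | ⟨t, h1, h2⟩
    · refine sav_sym hdeg hlead ?_ ?_
      · rw [e] at hint ⊢
        exact sr_cub hα h1 hint
      · rw [e]
        exact sym_cub hα (Or.inl h1)
    · refine sav_sym hdeg hlead (sr_root h1 h2) ?_
      rw [e] at h1 h2
      rw [e]
      exact sym_cub hα (cub_simple hα h1 h2)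
  · have hα : α ≠ 0 := by
      rintro rfl
      simp at hdeg
    have hu : u ≠ 0 := by
      rintro rfl
      rw [C_0, zero_mul, zero_add, ← C_pow, ← C_mul, ← C_add, natDegree_C] at hdeg
      omega
    have hk : 1 ≤ k := by
      refine Nat.pos_of_ne_zero ?_
      rintro rfl
      rw [pow_zero, mul_one, ← C_add, natDegree_C] at hdeg
      omega
    exact sav_sym hdeg hlead (sr_bin hk hu hc hint) (sym_bin hk hα hu hc)

end Vale.Agent.P042.S
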