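import Vale.Agent.P042.K.Defs

/-! # P042 K/Mu (TASK; helper names end with _mu): root multiplicities, kernels of characters.
`mu_mul`, `mu_pow`: `Polynomial.map_mul`, `rootMultiplicity_mul`.  `mu_taylor`: `map_taylor`, `rootMultiplicity_eq_rootMultiplicity` or `rootMultiplicity_eq_natTrailingDegree`, `taylor_taylor`.
`NP.npow`: apply `mu · ρ` to `a ^ D = (C c * f) ^ e * b ^ D` (all factors are nonzero): `D mu a = e mu f + D mu b`. -/

namespace Vale.Agent.P042.S

open Finset Polynomial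

variable {p : ℕ} [Fact p.Prime]

theorem mu_mul {f g : (ZMod p)[X]} (hf : f ≠ 0) (hg : g ≠ 0) (ρ : AlgebraicClosure (ZMod p)) :
    mu (f * g) ρ = mu f ρ + mu g ρ := by
  rw [mu, mu, mu, Polynomial.map_mul]
  exact rootMultiplicity_mul (mul_ne_zero (Polynomial.map_ne_zero hf) (Polynomial.map_ne_zero hg))

theorem mu_pow {f : (ZMod p)[X]} (hf : f ≠ 0) (n : ℕ) (ρ : AlgebraicClosure (ZMod p)) :
    mu (f ^ n) ρ = n * mu f ρ := by
  induction n with
  | zero => rw [pow_zero, zero_mul, mu, Polynomial.map_one, ← C_1, rootMultiplicity_C]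
  | succ n ih => rw [pow_succ, mu_mul (pow_ne_zero _ hf) hf, ih, add_mul, one_mul]

theorem mu_C (c : ZMod p) (ρ : AlgebraicClosure (ZMod p)) : mu (C c) ρ = 0 := by
  rw [mu, map_C, rootMultiplicity_C]

theorem mu_eq_zero {f : (ZMod p)[X]} {ρ : AlgebraicClosure (ZMod p)} (h : aeval ρ f ≠ 0) :
    mu f ρ = 0 := by
  refine rootMultiplicity_eq_zero fun hr => h ?_
  rwa [IsRoot.def, eval_map_algebraMap] at hr

theorem mu_eq_one {f : (ZMod p)[X]} {ρ : AlgebraicClosure (ZMod p)} (h : aeval ρ f = 0)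
    (h' : aeval ρ (derivative f) ≠ 0) : mu f ρ = 1 := by
  have hf : f ≠ 0 := by
    rintro rfl
    exact h' (by simp)
  have h0 := Polynomial.map_ne_zero (f := algebraMap (ZMod p) (AlgebraicClosure (ZMod p))) hf
  have h1 : 0 < mu f ρ := (rootMultiplicity_pos h0).2 (by rwa [IsRoot.def, eval_map_algebraMap])
  have h2 : ¬ 1 < mu f ρ := fun hlt => h' (by
    have := ((one_lt_rootMultiplicity_iff_isRoot h0).1 hlt).2
    rwa [derivative_map, IsRoot.def, eval_map_algebraMap] at this)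
  omega

theorem mu_taylor (f : (ZMod p)[X]) (t : ZMod p) (ρ : AlgebraicClosure (ZMod p)) :
    mu (taylor t f) ρ = mu f (ρ + algebraMap _ _ t) := by
  rw [mu, mu, map_taylor, rootMultiplicity_eq_rootMultiplicity (t := ρ),
    rootMultiplicity_eq_rootMultiplicity (t := ρ + _), ← taylor_apply, ← taylor_apply,
    taylor_taylor]

theorem NP.npow {D : ℕ} (hD : 0 < D) {f : (ZMod p)[X]} (h : NP D f) : NPow D f := by
  intro e he heD c a b hc hb hab
  have hcf : C c * f ≠ 0 := mul_ne_zero (C_ne_zero.2 hc) h.1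
  have ha : a ≠ 0 := by
    rintro rfl
    rw [zero_pow hD.ne'] at hab
    exact mul_ne_zero (pow_ne_zero _ hcf) (pow_ne_zero _ hb) hab.symm
  refine absurd (Nat.le_of_dvd he (h.2 e fun ρ => ?_)) (not_le.2 heD)
  have e1 := congrArg (mu · ρ) hab
  rw [mu_mul (pow_ne_zero _ hcf) (pow_ne_zero _ hb), mu_pow ha, mu_pow hcf, mu_pow hb,
    mu_mul (C_ne_zero.2 hc) h.1, mu_C, zero_add] at e1
  exact (Nat.dvd_add_left (Dvd.intro _ rfl)).1 (e1 ▸ Dvd.intro _ rfl)

end Vale.Agent.P042.S
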