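import Vale.Agent.P042.K.Defs

/-! # P042 K/StepA (TASK; helper names end with _sa): derivatives and the linear system.
`sT_spec`: induction on `n` (`Function.iterate_succ_apply'`, `derivative_mul`, `derivative_pow`, `a - n = (a - (n + 1)) + 1`).  `sT_natDegree`: induction, `natDegree_mul_le`, `natDegree_derivative_le`.
`exists_aux`: the linear map from `Fin D × Fin (J + 1) → degreeLT F (A + 1)` to `Fin ℓ → degreeLT F B` (or to `Fin ℓ → Fin B → F`, the first `B` coefficients of the left sides) has a nonzero kernel (`LinearMap.ker_ne_bot_of_finrank_lt`, `degreeLTEquiv`,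
`Module.finrank_pi`); simplest: unknowns `x : Fin D × Fin (J + 1) × Fin (A + 1) → F`, `r i j = ∑ k, monomial k (x (i, j, k))`, and a polynomial of degree `< B` with vanishing first `B` coefficients is zero. -/

namespace Vale.Agent.P042.S

open Finset Polynomial

variable {F : Type} [Field F]

theorem succ_sa (f r : F[X]) (a n : ℕ) : sT f a (n + 1) r =
    f * derivative (sT f a n r) + C ((a - n : ℕ) : F) * derivative f * sT f a n r := rfl

theorem sT_spec (f r : F[X]) {a n : ℕ} (h : n ≤ a) :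
    derivative^[n] (f ^ a * r) = f ^ (a - n) * sT f a n r := by
  induction n with
  | zero => rfl
  | succ n ih =>
    obtain ⟨k, hk⟩ : ∃ k, a - n = k + 1 := ⟨a - (n + 1), by omega⟩
    rw [Function.iterate_succ_apply', ih (by omega), succ_sa, derivative_mul, derivative_pow, hk,
      show a - (n + 1) = k by omega, Nat.add_sub_cancel]
    ring

theorem sT_natDegree {f r : F[X]} {m A : ℕ} (hf : f.natDegree ≤ m) (hr : r.natDegree ≤ A) (a n : ℕ) :
    (sT f a n r).natDegree ≤ A + n * m := by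
  induction n with
  | zero => simpa [sT] using hr
  | succ n ih =>
    rw [succ_sa]
    have h1 := (natDegree_derivative_le (sT f a n r)).trans (Nat.sub_le _ _)
    have h2 := (natDegree_derivative_le f).trans (Nat.sub_le _ _)
    have h3 := natDegree_C_mul_le ((a - n : ℕ) : F) (derivative f)
    refine (natDegree_add_le _ _).trans (max_le (natDegree_mul_le.trans ?_)
      (natDegree_mul_le.trans ?_)) <;> rw [add_mul] <;> omega

theorem exists_aux {f g z : F[X]} {m D J A ℓ : ℕ} (a : ℕ → ℕ) (hf : f.natDegree ≤ m)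
    (hg : g.natDegree ≤ m) (hz : z.natDegree ≤ 1)
    (hc : ℓ * (A + ℓ * m + D * m + J + 1) < D * (J + 1) * (A + 1)) :
    ∃ r : ℕ → ℕ → F[X], (∀ i j, (r i j).natDegree ≤ A) ∧ (∃ i < D, ∃ j ≤ J, r i j ≠ 0) ∧
      ∀ n < ℓ, ∑ i ∈ range D, ∑ j ∈ range (J + 1), sT f (a i) n (r i j) * g ^ i * z ^ j = 0 := by
  set B := A + ℓ * m + D * m + J + 1 with hB
  let L : (Fin D × Fin (J + 1) → degreeLT F (A + 1)) →ₗ[F] (Fin ℓ × Fin B → F) :=
    LinearMap.pi fun k => (lcoeff F k.2).comp (∑ q : Fin D × Fin (J + 1),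
      (LinearMap.mulRight F (g ^ (q.1 : ℕ) * z ^ (q.2 : ℕ))).comp ((sT f (a q.1) k.1).comp
        ((degreeLT F (A + 1)).subtype.comp (LinearMap.proj q))))
  have : Module.Finite F (degreeLT F (A + 1)) := (degreeLTEquiv F (A + 1)).symm.finiteDimensional
  have : Module.Free F (degreeLT F (A + 1)) := Module.Free.of_divisionRing _ _
  have hk : LinearMap.ker L ≠ ⊥ := LinearMap.ker_ne_bot_of_finrank_lt (by
    rw [Module.finrank_pi, Module.finrank_pi_fintype, (degreeLTEquiv F (A + 1)).finrank_eq]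
    simpa using hc)
  obtain ⟨x, hx, hx0⟩ := (Submodule.ne_bot_iff _).1 hk
  have hd : ∀ q, (x q : F[X]).natDegree ≤ A := fun q =>
    natDegree_le_of_degree_le (Order.le_of_lt_succ (mem_degreeLT.1 (x q).2))
  refine ⟨fun i j => if h : i < D ∧ j < J + 1 then x (⟨i, h.1⟩, ⟨j, h.2⟩) else 0, fun i j => ?_, ?_,
    fun n hn => ?_⟩
  · beta_reduce
    split_ifs
    · exact hd _
    · simp
  · obtain ⟨q, hq⟩ := Function.ne_iff.1 hx0
    refine ⟨q.1, q.1.2, q.2, Nat.le_of_lt_succ q.2.2, ?_⟩
    beta_reduce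
    rw [dif_pos ⟨q.1.2, q.2.2⟩]
    exact fun h => hq (Subtype.ext h)
  · have e : ∑ i ∈ range D, ∑ j ∈ range (J + 1), sT f (a i) n
        (if h : i < D ∧ j < J + 1 then x (⟨i, h.1⟩, ⟨j, h.2⟩) else 0) * g ^ i * z ^ j =
        ∑ q : Fin D × Fin (J + 1), sT f (a q.1) n (x q) * (g ^ (q.1 : ℕ) * z ^ (q.2 : ℕ)) := by
      rw [Fintype.sum_prod_type, sum_range]
      refine sum_congr rfl fun i _ => ?_
      rw [sum_range]
      refine sum_congr rfl fun j _ => ?_
      rw [dif_pos ⟨i.2, j.2⟩, mul_assoc]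
    rw [e]
    ext k
    rcases lt_or_ge k B with hkB | hkB
    · have h1 := congrFun (LinearMap.mem_ker.1 hx) (⟨n, hn⟩, ⟨k, hkB⟩)
      simpa [L, LinearMap.sum_apply, mul_assoc] using h1
    · refine coeff_eq_zero_of_natDegree_lt (lt_of_lt_of_le (Nat.lt_succ_of_le ?_) hkB)
      refine natDegree_sum_le_of_forall_le _ _ fun q _ => natDegree_mul_le.trans ?_
      have h1 := sT_natDegree hf (hd q) (a q.1) n
      have h2 := natDegree_mul_le (p := g ^ (q.1 : ℕ)) (q := z ^ (q.2 : ℕ))
      have h3 := natDegree_pow_le_of_le (q.1 : ℕ) hg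
      have h4 := natDegree_pow_le_of_le (q.2 : ℕ) hz
      have h5 := Nat.mul_le_mul_right m hn.le
      have h6 := Nat.mul_le_mul_right m q.1.2.le
      have h7 := q.2.2
      omega

end Vale.Agent.P042.S
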