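import Vale.Agent.P042.K.StepA
import Vale.Agent.P042.K.KumC

/-! # P042 K/StepB (TASK; helper names end with _sb): the auxiliary polynomial.
`P = (X - C x₀) ^ p`, `y = f ^ (p - e)`, `R = ∑ i < D, ∑ j ≤ J, f ^ (ℓ + (p - e) i) * r i j * P ^ j = f ^ ℓ * ∑ j, (∑ i, r i j * y ^ i) * P ^ j`.
`aux_ne`: take the least `j` with some `r i j ≠ 0` (`Nat.find`); if the sum vanishes then `P ∣ ∑ i, r i j * y ^ i` (cancel `P ^ j`); `y ^ D = f * (f ^ p) ^ (D - 1)` as `(p - e) D = p (D - 1) + 1`, and `P ∣ f ^ p - C (f x₀)` (`sub_pow_char`, `X_sub_C_dvd_sub_C_eval`-like `dvd_iff_isRoot`, `ZMod.pow_card`),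
so `P ∣ y ^ D - C (f x₀ ^ (D - 1)) * f` (`sub_dvd_pow_sub_pow`); `kM_det_dvd`, `kM_natDegree` (degree `< p = natDegree P`, `eq_zero_of_dvd_of_natDegree_lt`), `kM_det_ne`; a primitive `D`-th root exists as `D ∣ p - 1` (`IsCyclic.exists_generator`, `IsPrimitiveRoot.pow_of_dvd`, or `ZMod.exists_isPrimitiveRoot`-like). -/

namespace Vale.Agent.P042.S

open Finset Polynomial

variable {p : ℕ} [Fact p.Prime]

theorem low_sb {R : Type} [CommRing R] [IsDomain R] {P : R} (hP : P ≠ 0) {s : ℕ → R} {J j : ℕ}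
    (hj : j ≤ J) (h0 : ∀ k < j, s k = 0) (h : ∑ k ∈ range (J + 1), s k * P ^ k = 0) : P ∣ s j := by
  rw [← add_sum_erase _ _ (mem_range.2 (Nat.lt_succ_of_le hj)), add_eq_zero_iff_eq_neg] at h
  rw [← mul_dvd_mul_iff_right (pow_ne_zero j hP), h, dvd_neg, ← pow_succ']
  refine dvd_sum fun k hk => ?_
  rcases (ne_of_mem_erase hk).lt_or_gt with h1 | h1
  · rw [h0 k h1, zero_mul]
    exact dvd_zero _
  · exact (pow_dvd_pow P h1).mul_left _

theorem aux_ne {f : (ZMod p)[X]} {m D e J A : ℕ} (hD : 0 < D) (he : e * D + 1 = p)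
    (hm : f.natDegree ≤ m) (hf : NPow D f) {x₀ : ZMod p} (hx : f.eval x₀ ≠ 0)
    (hA : D * (A + m) < p) {r : ℕ → ℕ → (ZMod p)[X]} (hr : ∀ i j, (r i j).natDegree ≤ A)
    (hr0 : ∃ i < D, ∃ j ≤ J, r i j ≠ 0) :
    ∑ j ∈ range (J + 1), (∑ i ∈ range D, r i j * (f ^ (p - e)) ^ i) * ((X - C x₀) ^ p) ^ j ≠ 0 := by
  classical
  intro h
  have hp := (Fact.out : p.Prime).two_le
  have hex : ∃ j, j ≤ J ∧ ∃ i, i < D ∧ r i j ≠ 0 := by
    obtain ⟨i, hi, j, hj, h⟩ := hr0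
    exact ⟨j, hj, i, hi, h⟩
  obtain ⟨hj, hi⟩ := Nat.find_spec hex
  have hP : ((X - C x₀) ^ p : (ZMod p)[X]).Monic := (monic_X_sub_C x₀).pow p
  have h2 := low_sb hP.ne_zero hj (fun k hk => sum_eq_zero fun i hi => by
    have : r i k = 0 := by_contra fun h0 =>
      Nat.find_min hex hk ⟨hk.le.trans hj, i, mem_range.1 hi, h0⟩
    rw [this, zero_mul]) h
  obtain ⟨D', rfl⟩ := Nat.exists_eq_succ_of_ne_zero hD.ne'
  have e1 : (p - e) * (D' + 1) = p * D' + 1 := by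
    rw [show p - e = e * D' + 1 by rw [← he, Nat.mul_succ]; omega, ← he, Nat.succ_eq_add_one]
    ring
  have h3 : (X - C x₀) ^ p ∣ f ^ p - C (f.eval x₀) := by
    have := pow_dvd_pow_of_dvd (X_sub_C_dvd_sub_C_eval (p := f) (a := x₀)) p
    rwa [sub_pow_char f, ← C_pow, ZMod.pow_card] at this
  have h1 : (X - C x₀) ^ p ∣ (f ^ (p - e)) ^ (D' + 1) - C (f.eval x₀ ^ D') * f := by
    rw [← pow_mul, e1, pow_succ, pow_mul, ← sub_mul, C_pow]
    exact (h3.trans (sub_dvd_pow_sub_pow _ _ _)).mul_right _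
  obtain ⟨ζ, hζ⟩ := HasEnoughRootsOfUnity.exists_primitiveRoot (ZMod p) (p - 1)
  refine kM_det_ne hD (hζ.pow (by omega) (Nat.sub_eq_of_eq_add he.symm))
    (fun h0 => hx (by rw [h0, eval_zero])) hf (pow_ne_zero D' hx) hi
    (eq_zero_of_dvd_of_natDegree_lt (kM_det_dvd hD _ h1 h2) ?_)
  rw [(monic_X_sub_C x₀).natDegree_pow, natDegree_X_sub_C, mul_one]
  exact (kM_natDegree ((natDegree_C_mul_le _ _).trans hm) fun i => hr i _).trans_lt hA

end Vale.Agent.P042.S
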