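import Vale.Agent.P042.K.StepD

/-! # P042 K/StepC (TASK; helper names end with _sc): the choice of parameters.
`ℓ = Nat.sqrt p`, `A = e - m`, `C₁ = 2 (2 m + D m + 3)`, `J = ℓ / D + C₁` (so `ℓ < D (ℓ / D + 1)`).  For `p ≥ p₀ = (2 D m + 4) ^ 2` (or larger): `m ≤ e`, `D (A + m) = p - 1`, `D (A + 1) ≥ p - D m`, `D m + ℓ ≤ p / 2`, `ℓ ^ 2 ≤ p`, and
`(J + 1) (p - D m - ℓ) > ℓ e + ℓ ^ 2 m + ℓ D m` gives the condition of `step_core` (work in `ℝ` or `ℤ`).  Then `N ≤ m + (p + p D m + p C₁) / ℓ + p / D` and `p / ℓ ≤ 2 √p`.  For `p < p₀` use `N ≤ p ≤ √p₀ √p`. -/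

namespace Vale.Agent.P042.S

open Finset Polynomial

theorem cond_sc {p e D m A ℓ q : ℕ} (he : e * D + 1 = p) (hA : A + m = e) (h1 : ℓ ^ 2 ≤ p)
    (h2 : D * m + 3 ≤ ℓ) (h3 : ℓ < D * (q + 1)) (h4 : q ≤ ℓ) (hD : 0 < D) :
    ℓ * (A + ℓ * m + D * m + (q + 2 * (3 * (D * m) + m + 3)) + 1) <
      D * ((q + 2 * (3 * (D * m) + m + 3)) + 1) * (A + 1) := by
  have e1 : p ≤ D * (A + 1) + D * m := by subst hA he; nlinarith
  generalize D * m = K at *
  have e2 : 2 * K + 2 * ℓ ≤ p := by nlinarith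
  have e3 : ℓ * A ≤ (q + 1) * p := by
    have a1 : A * D ≤ p := by subst hA he; nlinarith
    calc ℓ * A ≤ D * (q + 1) * A := Nat.mul_le_mul_right _ h3.le
      _ = (q + 1) * (A * D) := by ring
      _ ≤ _ := Nat.mul_le_mul_left _ a1
  have e4 : ℓ ≤ p := by omega
  have e5 : ℓ * K ≤ p * K := Nat.mul_le_mul_right _ e4
  have e6 : ℓ ^ 2 * m ≤ p * m := Nat.mul_le_mul_right _ h1
  have e7 : (q + 1) * (K + ℓ) ≤ (ℓ + 1) * (K + ℓ) := Nat.mul_le_mul_right _ (by omega)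
  have e8 : K ≤ p * K := Nat.le_mul_of_pos_left _ (by omega)
  have e9 : (3 * K + m + 3) * (2 * K + 2 * ℓ) ≤ (3 * K + m + 3) * p := Nat.mul_le_mul_left _ e2
  have e10 : (q + 2 * (3 * K + m + 3) + 1) * p ≤
      (q + 2 * (3 * K + m + 3) + 1) * (D * (A + 1) + K) := Nat.mul_le_mul_left _ e1
  have e11 : 0 < p := by omega
  nlinarith

theorem stepanov (m D : ℕ) (hD : 0 < D) : ∃ C : ℝ, 0 ≤ C ∧ ∀ (p : ℕ) [Fact p.Prime] (e : ℕ),
    e * D + 1 = p → ∀ f : (ZMod p)[X], f.natDegree ≤ m → NPow D f → ∀ θ : ZMod p, θ ≠ 0 →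
      ((univ.filter fun x => f.eval x ^ e = θ).card : ℝ) ≤ p / D + C * √p := by
  refine ⟨m + 2 * (1 + D * m + 2 * (3 * (D * m) + m + 3)) + (D * m + 3), by positivity,
    fun p _ e he f hm hf θ hθ => ?_⟩
  have hp : 1 ≤ p := by omega
  have hpr : (1 : ℝ) ≤ p := by exact_mod_cast hp
  have hs : √(p : ℝ) * √(p : ℝ) = p := Real.mul_self_sqrt (by positivity)
  have hs1 : 1 ≤ √(p : ℝ) := Real.one_le_sqrt.2 hpr
  have hpD : (0 : ℝ) ≤ p / D := by positivity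
  by_cases hb : (D * m + 3) ^ 2 ≤ p
  · have h2 : D * m + 3 ≤ Nat.sqrt p := Nat.le_sqrt'.2 hb
    have h1 : Nat.sqrt p ^ 2 ≤ p := Nat.sqrt_le' p
    have h0 : p < (Nat.sqrt p + 1) ^ 2 := Nat.lt_succ_sqrt' p
    generalize Nat.sqrt p = ℓ at *
    have hme : m ≤ e := by
      have : m * D ≤ e * D := by nlinarith
      exact Nat.le_of_mul_le_mul_right this hD
    obtain ⟨A, hA⟩ : ∃ A, A + m = e := ⟨e - m, by omega⟩
    have h3 : D * (ℓ / D) ≤ ℓ := Nat.mul_div_le _ _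
    have h5 := step_core hD he hm hf (A := A) (by rw [hA, mul_comm]; omega) (by nlinarith)
      (cond_sc he hA h1 h2 (Nat.lt_mul_div_succ ℓ hD) (Nat.div_le_self _ _) hD) hθ
    generalize ℓ / D = q at *
    generalize (univ.filter fun x => f.eval x ^ e = θ).card = N at *
    have hA' : A ≤ p := by nlinarith
    have r1 : (ℓ : ℝ) * N ≤ ℓ * m + A + p * D * m + p * (q + 2 * (3 * (D * m) + m + 3)) := by
      exact_mod_cast h5
    have r2 : (A : ℝ) ≤ p := by exact_mod_cast hA'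
    have r3 : (D : ℝ) * q ≤ ℓ := by exact_mod_cast h3
    have r4 : (1 : ℝ) ≤ ℓ := by exact_mod_cast (by omega : 1 ≤ ℓ)
    have r5 : √(p : ℝ) ≤ ℓ + 1 := Real.sqrt_le_iff.2 ⟨by positivity, by exact_mod_cast h0.le⟩
    have r6 : (p : ℝ) ≤ 2 * ℓ * √(p : ℝ) := by nlinarith
    have hDr : (0 : ℝ) < D := by exact_mod_cast hD
    have r7 : (p : ℝ) * q ≤ ℓ * (p / D) := by
      have : (p : ℝ) * q = D * q * (p / D) := by field_simp
      rw [this]
      exact mul_le_mul_of_nonneg_right r3 hpD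
    have r8 : (ℓ : ℝ) * m ≤ ℓ * m * √(p : ℝ) := le_mul_of_one_le_right (by positivity) hs1
    have r9 : (p : ℝ) * (1 + D * m + 2 * (3 * (D * m) + m + 3)) ≤
        2 * ℓ * √(p : ℝ) * (1 + D * m + 2 * (3 * (D * m) + m + 3)) :=
      mul_le_mul_of_nonneg_right r6 (by positivity)
    have r10 : (0 : ℝ) ≤ ℓ * ((D * m + 3) * √(p : ℝ)) := by positivity
    refine le_of_mul_le_mul_left (a := (ℓ : ℝ)) ?_ (by linarith)
    nlinarith
  · have h1 : (univ.filter fun x => f.eval x ^ e = θ).card ≤ p :=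
      (card_le_univ _).trans (ZMod.card p).le
    have h2 : ((univ.filter fun x => f.eval x ^ e = θ).card : ℝ) ≤ p := by exact_mod_cast h1
    have h3 : √(p : ℝ) ≤ D * m + 3 :=
      Real.sqrt_le_iff.2 ⟨by positivity, by exact_mod_cast (not_le.1 hb).le⟩
    have h4 : √(p : ℝ) * √(p : ℝ) ≤ (D * m + 3) * √(p : ℝ) :=
      mul_le_mul_of_nonneg_right h3 (by positivity)
    have h5 : (0 : ℝ) ≤ (m + 2 * (1 + D * m + 2 * (3 * (D * m) + m + 3))) * √(p : ℝ) := by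
      positivity
    nlinarith

end Vale.Agent.P042.S
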