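import Vale.Agent.P042.K.StepB

/-! # P042 K/StepD (TASK; helper names end with _sd): counting with the auxiliary polynomial.
`P = (X - C x₀) ^ p`, `y = f ^ (p - e)`, `R = ∑ i < D, ∑ j ≤ J, f ^ (ℓ + (p - e) i) * r i j * P ^ j = f ^ ℓ * ∑ j, (∑ i, r i j * y ^ i) * P ^ j`.
If the set is empty there is nothing to prove; otherwise `x₀` is one of its points (`e ≥ 1`, so `f x₀ ≠ 0`); `R ≠ 0` by `aux_ne`.
`step_core`: `exists_aux` with `a i = ℓ + (p - e) i`, `g = C θ⁻¹ * f`, `z = X - C x₀`; `derivative P = 0`, so `derivative^[n] (q * P ^ j) = derivative^[n] q * P ^ j`; `sT_spec`; at `x` with `f x ^ e = θ`: `f x ^ (p - e) = θ⁻¹ * f x`, `P x = x - x₀`;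
`lt_rootMultiplicity_of_isRoot_iterate_derivative_of_mem_nonZeroDivisors'` (`n < ℓ ≤ p`), so `ℓ * N ≤ card roots ≤ natDegree R` (`count_roots`, `Multiset.toFinset_sum_count_eq`, or `∏ (X - C x) ^ ℓ ∣ R`). -/

namespace Vale.Agent.P042.S

open Finset Polynomial

variable {p : ℕ} [Fact p.Prime]

theorem iter_mul_sd {F : Type} [Field F] {Q : F[X]} (hQ : derivative Q = 0) (q : F[X]) (n : ℕ) :
    derivative^[n] (q * Q) = derivative^[n] q * Q := by
  induction n with
  | zero => rfl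
  | succ n ih =>
    rw [Function.iterate_succ_apply', Function.iterate_succ_apply', ih, derivative_mul, hQ,
      mul_zero, add_zero]

theorem der_P_sd (x₀ : ZMod p) (j : ℕ) : derivative (((X - C x₀) ^ p) ^ j : (ZMod p)[X]) = 0 := by
  have h : derivative ((X - C x₀) ^ p : (ZMod p)[X]) = 0 := by
    rw [derivative_pow, ZMod.natCast_self, C_0, zero_mul, zero_mul]
  rw [derivative_pow, h, mul_zero]

theorem count_sd {F : Type} [Field F] [Fintype F] [DecidableEq F] {R : F[X]} (S : Finset F) {ℓ : ℕ}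
    (h : ∀ x ∈ S, ℓ ≤ R.rootMultiplicity x) : ℓ * S.card ≤ R.natDegree := by
  calc ℓ * S.card = ∑ _x ∈ S, ℓ := by rw [sum_const, smul_eq_mul, mul_comm]
    _ ≤ ∑ x ∈ S, R.roots.count x := sum_le_sum fun x hx => by rw [count_roots]; exact h x hx
    _ ≤ ∑ x ∈ univ, R.roots.count x := sum_le_sum_of_subset (subset_univ _)
    _ = R.roots.card := Multiset.sum_count_eq_card fun a _ => mem_univ a
    _ ≤ R.natDegree := card_roots' R

theorem step_core {f : (ZMod p)[X]} {m D e J A ℓ : ℕ} (hD : 0 < D) (he : e * D + 1 = p)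
    (hm : f.natDegree ≤ m) (hf : NPow D f) (hA : D * (A + m) < p) (hℓ : ℓ ≤ p)
    (hc : ℓ * (A + ℓ * m + D * m + J + 1) < D * (J + 1) * (A + 1)) {θ : ZMod p} (hθ : θ ≠ 0) :
    ℓ * (univ.filter fun x => f.eval x ^ e = θ).card ≤ ℓ * m + A + p * D * m + p * J := by
  rcases (univ.filter fun x => f.eval x ^ e = θ).eq_empty_or_nonempty with h0 | ⟨x₀, hx₀⟩
  · rw [h0, card_empty, mul_zero]; exact Nat.zero_le _
  rcases Nat.eq_zero_or_pos ℓ with rfl | hℓ0
  · rw [zero_mul]; exact Nat.zero_le _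
  have hp2 : 2 ≤ p := (Fact.out : p.Prime).two_le
  have he0 : e ≠ 0 := by
    rintro rfl
    omega
  have hep : e ≤ p := by
    have : e ≤ e * D := Nat.le_mul_of_pos_right e hD
    omega
  have hne : ∀ x, f.eval x ^ e = θ → f.eval x ≠ 0 := fun x hx h => by
    rw [h, zero_pow he0] at hx
    exact hθ hx.symm
  have hx0 := hne x₀ (mem_filter.1 hx₀).2
  have hf0 : f ≠ 0 := by
    rintro rfl
    exact hx0 eval_zero
  have hg : (C θ⁻¹ * f).natDegree ≤ m := (natDegree_C_mul_le _ _).trans hm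
  have hz : (X - C x₀ : (ZMod p)[X]).natDegree ≤ 1 := (natDegree_X_sub_C x₀).le
  obtain ⟨r, hr, hr0, hsys⟩ := exists_aux (fun i => ℓ + (p - e) * i) hm hg hz hc
  set R : (ZMod p)[X] := ∑ i ∈ range D, ∑ j ∈ range (J + 1),
    f ^ (ℓ + (p - e) * i) * r i j * ((X - C x₀) ^ p) ^ j with hR
  have hR0 : R ≠ 0 := by
    have h1 : R = f ^ ℓ * ∑ j ∈ range (J + 1),
        (∑ i ∈ range D, r i j * (f ^ (p - e)) ^ i) * ((X - C x₀) ^ p) ^ j := by
      rw [hR, sum_comm, mul_sum]
      refine sum_congr rfl fun j _ => ?_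
      rw [sum_mul, mul_sum]
      refine sum_congr rfl fun i _ => ?_
      rw [pow_add, pow_mul]
      ring
    rw [h1]
    exact mul_ne_zero (pow_ne_zero _ hf0) (aux_ne hD he hm hf hx0 hA hr hr0)
  have hdeg : R.natDegree ≤ ℓ * m + A + p * D * m + p * J := by
    refine natDegree_sum_le_of_forall_le _ _ fun i hi => ?_
    refine natDegree_sum_le_of_forall_le _ _ fun j hj => ?_
    have h1 : (f ^ (ℓ + (p - e) * i)).natDegree ≤ (ℓ + p * D) * m :=
      natDegree_pow_le.trans (Nat.mul_le_mul (Nat.add_le_add_left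
        (Nat.mul_le_mul (Nat.sub_le _ _) (mem_range.1 hi).le) _) hm)
    have h2 : (((X - C x₀) ^ p) ^ j : (ZMod p)[X]).natDegree ≤ J * (p * 1) :=
      natDegree_pow_le.trans (Nat.mul_le_mul (Nat.lt_succ_iff.1 (mem_range.1 hj))
        (natDegree_pow_le.trans (Nat.mul_le_mul_left _ hz)))
    have h3 := natDegree_mul_le (p := f ^ (ℓ + (p - e) * i) * r i j) (q := ((X - C x₀) ^ p) ^ j)
    have h4 := natDegree_mul_le (p := f ^ (ℓ + (p - e) * i)) (q := r i j)
    have h5 := hr i j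
    have h6 : (ℓ + p * D) * m = ℓ * m + p * D * m := by ring
    have h7 : J * (p * 1) = p * J := by ring
    omega
  refine (count_sd _ fun x hx => ?_).trans hdeg
  have hx1 := (mem_filter.1 hx).2
  have hy : f.eval x ^ (p - e) = θ⁻¹ * f.eval x := by
    have h1 : f.eval x ^ (p - e) * θ = f.eval x := by
      rw [← hx1, ← pow_add, Nat.sub_add_cancel hep, ZMod.pow_card]
    rw [eq_inv_mul_iff_mul_eq₀ hθ, mul_comm, h1]
  have hlt : ℓ - 1 < R.rootMultiplicity x := by
    refine lt_rootMultiplicity_of_isRoot_iterate_derivative_of_mem_nonZeroDivisors' hR0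
      (fun n hn => ?_) (fun n hn hn0 => mem_nonZeroDivisors_of_ne_zero ?_)
    · have hn' : n < ℓ := by omega
      have h1 := congrArg (eval x) (hsys n hn')
      rw [eval_zero] at h1
      rw [IsRoot.def, hR, iterate_derivative_sum, ← mul_zero (f.eval x ^ (ℓ - n)), ← h1,
        eval_finset_sum, eval_finset_sum, mul_sum]
      refine sum_congr rfl fun i _ => ?_
      rw [iterate_derivative_sum, eval_finset_sum, eval_finset_sum, mul_sum]
      refine sum_congr rfl fun j _ => ?_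
      rw [iter_mul_sd (der_P_sd x₀ j), sT_spec _ _ (by omega),
        show ℓ + (p - e) * i - n = (ℓ - n) + (p - e) * i by omega]
      simp only [eval_mul, eval_pow, eval_sub, eval_X, eval_C, pow_add, pow_mul, hy,
        ZMod.pow_card]
      ring
    · rw [Ne, ZMod.natCast_eq_zero_iff]
      exact Nat.not_dvd_of_pos_of_lt (Nat.pos_of_ne_zero hn0) (by omega)
  omega

end Vale.Agent.P042.S
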