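import Vale.Agent.P042.K.Char

/-! # P042 K/Twist (TASK; helper names end with _tw): twisted character sums.
`twist`: `‖S‖ ^ 2 = ∑ t, ψ (a t) * ∑ v, χ (f (v + t)) * conj (χ (f v))` and `conj (χ y) = χ (y ^ (D - 1))` (`MulChar.star_apply'`, `χ ^ D = 1`; also for `y = 0` as `D ≥ 2`), so the inner sum is `∑ v, χ (G v)`, `G = taylor t f * f ^ (D - 1)` of degree at most `D m`.
For `t ∉ T` (`bad_shift`) `NP D G`: if `mu f ρ ≠ 0` then `mu G ρ = (D - 1) mu f ρ` (`mu_mul`, `mu_pow`, `mu_taylor`), and `D ∣ e (D - 1) μ` gives `D ∣ e μ`.  So `‖S‖ ^ 2 ≤ p C √p + m ^ 2 p ≤ (C + m ^ 2) p ^ (3 / 2)`. -/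

namespace Vale.Agent.P042.S

open Finset Polynomial

theorem conj_tw {p : ℕ} [Fact p.Prime] {D : ℕ} (hD : 2 ≤ D) {χ : MulChar (ZMod p) ℂ}
    (hχ : orderOf χ = D) (y : ZMod p) : (starRingEnd ℂ) (χ y) = χ (y ^ (D - 1)) := by
  have h1 : χ⁻¹ = χ ^ (D - 1) := by
    rw [inv_eq_iff_mul_eq_one, ← pow_succ', Nat.sub_add_cancel (by omega), ← hχ,
      pow_orderOf_eq_one]
  have h2 := MulChar.star_apply' χ y
  rw [h1, MulChar.pow_apply' _ (by omega), ← map_pow] at h2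
  exact h2

theorem np_tw {p : ℕ} [Fact p.Prime] {D : ℕ} (hD : 2 ≤ D) {f : (ZMod p)[X]} (h : NP D f)
    {t : ZMod p} (ht : ∀ ρ, mu f ρ = 0 ∨ mu f (ρ + algebraMap _ _ t) = 0) :
    NP D (taylor t f * f ^ (D - 1)) := by
  have h0 : taylor t f ≠ 0 := fun e => h.1 (taylor_injective t (e.trans (map_zero _).symm))
  have h1 : f ^ (D - 1) ≠ 0 := pow_ne_zero _ h.1
  refine ⟨mul_ne_zero h0 h1, fun e he => h.2 e fun ρ => ?_⟩
  rcases ht ρ with h2 | h2
  · rw [h2, mul_zero]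
    exact dvd_zero _
  · have h3 := he ρ
    rw [mu_mul h0 h1, mu_taylor, h2, zero_add, mu_pow h.1] at h3
    obtain ⟨k, rfl⟩ : ∃ k, D = k + 1 := ⟨D - 1, by omega⟩
    rw [Nat.add_sub_cancel] at h3
    have h4 : (k + 1) * (e * mu f ρ) = e * (k * mu f ρ) + e * mu f ρ := by ring
    exact (Nat.dvd_add_right h3).1 (h4 ▸ dvd_mul_right _ _)

theorem sq_tw {p : ℕ} [Fact p.Prime] {D : ℕ} (hD : 2 ≤ D) {χ : MulChar (ZMod p) ℂ}
    (hχ : orderOf χ = D) (f : (ZMod p)[X]) (a : ZMod p) :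
    (∑ v, χ (f.eval v) * ZMod.stdAddChar (a * v)) *
      (starRingEnd ℂ) (∑ v, χ (f.eval v) * ZMod.stdAddChar (a * v)) =
      ∑ t, ∑ v, ZMod.stdAddChar (a * t) * χ ((taylor t f * f ^ (D - 1)).eval v) := by
  rw [map_sum, Finset.mul_sum, Finset.sum_comm]
  refine Finset.sum_congr rfl fun v _ => ?_
  rw [Finset.sum_mul, ← Equiv.sum_comp (Equiv.addLeft v)]
  refine Finset.sum_congr rfl fun t _ => ?_
  rw [map_mul (starRingEnd ℂ), conj_tw hD hχ, ← AddChar.map_neg_eq_conj, eval_mul, taylor_eval,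
    eval_pow, map_mul χ, Equiv.coe_addLeft]
  have h1 : (ZMod.stdAddChar (a * (v + t)) : ℂ) * ZMod.stdAddChar (-(a * v)) =
      ZMod.stdAddChar (a * t) := by
    rw [← AddChar.map_add_eq_mul]
    congr 1
    ring
  linear_combination (χ (f.eval (v + t)) * χ (f.eval v ^ (D - 1))) * h1

theorem twist (m D : ℕ) (hD : 2 ≤ D) : ∃ C : ℝ, 0 ≤ C ∧ ∀ (p : ℕ) [Fact p.Prime]
    (χ : MulChar (ZMod p) ℂ), orderOf χ = D → ∀ f : (ZMod p)[X], f.natDegree ≤ m → NP D f →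
      ∀ a : ZMod p, ‖∑ v, χ (f.eval v) * ZMod.stdAddChar (a * v)‖ ≤ C * (p : ℝ) ^ (3 / 4 : ℝ) := by
  classical
  obtain ⟨C, hC, H⟩ := char_sum (D * m) D hD
  refine ⟨√(C + m ^ 2), Real.sqrt_nonneg _, fun p _ χ hχ f hm hf a => ?_⟩
  obtain ⟨T, hT, hT'⟩ := bad_shift hf.1 hm
  have hp1 : (1 : ℝ) ≤ p := by exact_mod_cast (Fact.out : p.Prime).one_lt.le
  have hp0 : (0 : ℝ) < p := by linarith
  have hs : (1 : ℝ) ≤ √p := Real.one_le_sqrt.2 hp1
  have hin : ∀ t : ZMod p, ‖∑ v, ZMod.stdAddChar (a * t) * χ ((taylor t f * f ^ (D - 1)).eval v)‖ ≤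
      C * √p + if t ∈ T then (p : ℝ) else 0 := by
    intro t
    rw [← Finset.mul_sum, norm_mul, AddChar.norm_apply, one_mul]
    split_ifs with ht
    · have h1 : ‖∑ v, χ ((taylor t f * f ^ (D - 1)).eval v)‖ ≤ ∑ _v : ZMod p, (1 : ℝ) :=
        norm_sum_le_of_le _ fun v _ => DirichletCharacter.norm_le_one χ _
      rw [Finset.sum_const, Finset.card_univ, ZMod.card, nsmul_eq_mul, mul_one] at h1
      have h2 : 0 ≤ C * √p := mul_nonneg hC (Real.sqrt_nonneg _)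
      linarith
    · rw [add_zero]
      refine H p χ hχ _ ?_ (np_tw hD hf (hT' t ht))
      refine natDegree_mul_le.trans ?_
      rw [natDegree_taylor]
      have h1 : (f ^ (D - 1)).natDegree ≤ (D - 1) * m :=
        natDegree_pow_le.trans (Nat.mul_le_mul_left _ hm)
      obtain ⟨k, rfl⟩ : ∃ k, D = k + 1 := ⟨D - 1, by omega⟩
      rw [Nat.add_sub_cancel] at h1 ⊢
      rw [add_mul, one_mul]
      omega
  have h1 : ‖∑ v, χ (f.eval v) * ZMod.stdAddChar (a * v)‖ ^ 2 ≤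
      ∑ t : ZMod p, (C * √p + if t ∈ T then (p : ℝ) else 0) := by
    have h2 := congrArg norm (sq_tw hD hχ f a)
    rw [norm_mul, RCLike.norm_conj, ← sq] at h2
    rw [h2]
    exact norm_sum_le_of_le _ fun t _ => hin t
  rw [Finset.sum_add_distrib, Finset.sum_const, Finset.card_univ, ZMod.card, nsmul_eq_mul,
    Finset.sum_ite_mem, Finset.univ_inter, Finset.sum_const, nsmul_eq_mul] at h1
  have h3 : (T.card : ℝ) ≤ (m : ℝ) ^ 2 := by exact_mod_cast hT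
  have h4 : ((p : ℝ) ^ (3 / 4 : ℝ)) ^ 2 = p * √p := by
    rw [← Real.rpow_natCast, ← Real.rpow_mul hp0.le, Real.sqrt_eq_rpow,
      ← Real.rpow_one_add' hp0.le (by norm_num)]
    norm_num
  refine (pow_le_pow_iff_left₀ (norm_nonneg _) (by positivity) two_ne_zero).1 (h1.trans ?_)
  rw [mul_pow, h4, Real.sq_sqrt (by positivity)]
  have h5 : (T.card : ℝ) * p ≤ (m : ℝ) ^ 2 * (p * √p) :=
    mul_le_mul h3 (le_mul_of_one_le_right hp0.le hs) hp0.le (by positivity)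
  nlinarith

end Vale.Agent.P042.S
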