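import Vale.Agent.P042.K.Twist

/-! # P042 K/TwistB (TASK; helper names end with _tb): twisted sums with two polynomials.
`twist2`: `g = gcd (gcd i j) D`, `χ' = χ ^ g` has order `D / g ≥ 2` (`orderOf_pow'`), `F = f₁ ^ (i / g) * f₂ ^ (j / g)`, `χ y₁ ^ i * χ y₂ ^ j = χ' (F v)` (`MulChar.pow_apply'`), `NP (D / g) F` from `mu F ρ₁ = i / g`, `mu F ρ₂ = j / g`;
a uniform constant: the sum of the constants of `twist (2 D m) D'` over `D' ≤ D` (`choose`). -/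

namespace Vale.Agent.P042.S

open Finset Polynomial

theorem np_tb {p : ℕ} [Fact p.Prime] {f₁ f₂ : (ZMod p)[X]} (h₁ : f₁ ≠ 0) (h₂ : f₂ ≠ 0)
    (r₁ : ∃ ρ, mu f₁ ρ = 1 ∧ mu f₂ ρ = 0) (r₂ : ∃ ρ, mu f₁ ρ = 0 ∧ mu f₂ ρ = 1) {i j D : ℕ}
    (hc : Nat.Coprime D (Nat.gcd i j)) : NP D (f₁ ^ i * f₂ ^ j) := by
  refine ⟨mul_ne_zero (pow_ne_zero _ h₁) (pow_ne_zero _ h₂), fun e he => ?_⟩
  obtain ⟨ρ₁, a₁, b₁⟩ := r₁
  obtain ⟨ρ₂, a₂, b₂⟩ := r₂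
  have e₁ := he ρ₁
  have e₂ := he ρ₂
  rw [mu_mul (pow_ne_zero _ h₁) (pow_ne_zero _ h₂), mu_pow h₁, mu_pow h₂] at e₁ e₂
  rw [a₁, b₁, mul_one, mul_zero, add_zero] at e₁
  rw [a₂, b₂, mul_one, mul_zero, zero_add] at e₂
  have h := Nat.dvd_gcd e₁ e₂
  rw [Nat.gcd_mul_left] at h
  exact hc.dvd_of_dvd_mul_right h

theorem split_tb {i j D : ℕ} (hi : i < D) (hj : j < D) (hij : i ≠ 0 ∨ j ≠ 0) :
    ∃ g i' j' D' : ℕ, g ≠ 0 ∧ i = g * i' ∧ j = g * j' ∧ D = g * D' ∧ 2 ≤ D' ∧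
      Nat.Coprime D' (Nat.gcd i' j') := by
  have hD : 0 < D := by omega
  have hg : 0 < Nat.gcd D (Nat.gcd i j) := Nat.gcd_pos_of_pos_left _ hD
  obtain ⟨D', k, hc, e₁, e₂⟩ := Nat.exists_coprime D (Nat.gcd i j)
  generalize Nat.gcd D (Nat.gcd i j) = g at hg e₁ e₂
  have d : g ∣ Nat.gcd i j := ⟨k, by rw [e₂, mul_comm]⟩
  obtain ⟨i', hi'⟩ : g ∣ i := d.trans (Nat.gcd_dvd_left i j)
  obtain ⟨j', hj'⟩ : g ∣ j := d.trans (Nat.gcd_dvd_right i j)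
  refine ⟨g, i', j', D', hg.ne', hi', hj', by rw [e₁, mul_comm], ?_, ?_⟩
  · by_contra h
    have h1 : D' ≤ 1 := by omega
    have h2 : D ≤ g := by
      rw [e₁]
      calc D' * g ≤ 1 * g := Nat.mul_le_mul_right _ h1
        _ = g := one_mul g
    rcases hij with h0 | h0
    · have := Nat.le_of_dvd (Nat.pos_of_ne_zero h0) ⟨i', hi'⟩
      omega
    · have := Nat.le_of_dvd (Nat.pos_of_ne_zero h0) ⟨j', hj'⟩
      omega
  · have : Nat.gcd i' j' = k := by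
      rw [hi', hj', Nat.gcd_mul_left, mul_comm k g] at e₂
      exact Nat.eq_of_mul_eq_mul_left hg e₂
    rw [this]
    exact hc

theorem twist2 (m D : ℕ) : ∃ C : ℝ, 0 ≤ C ∧ ∀ (p : ℕ) [Fact p.Prime]
    (χ : MulChar (ZMod p) ℂ), orderOf χ = D → ∀ f₁ f₂ : (ZMod p)[X], f₁.natDegree ≤ m →
      f₂.natDegree ≤ m → f₁ ≠ 0 → f₂ ≠ 0 → (∃ ρ, mu f₁ ρ = 1 ∧ mu f₂ ρ = 0) →
      (∃ ρ, mu f₁ ρ = 0 ∧ mu f₂ ρ = 1) → ∀ i < D, ∀ j < D, (i ≠ 0 ∨ j ≠ 0) → ∀ a : ZMod p,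
        ‖∑ v, χ (f₁.eval v) ^ i * χ (f₂.eval v) ^ j * ZMod.stdAddChar (a * v)‖ ≤
          C * (p : ℝ) ^ (3 / 4 : ℝ) := by
  have H : ∀ D' : ℕ, ∃ C : ℝ, 0 ≤ C ∧ (2 ≤ D' → ∀ (p : ℕ) [Fact p.Prime]
      (χ : MulChar (ZMod p) ℂ), orderOf χ = D' → ∀ f : (ZMod p)[X], f.natDegree ≤ 2 * D * m →
        NP D' f → ∀ a : ZMod p,
          ‖∑ v, χ (f.eval v) * ZMod.stdAddChar (a * v)‖ ≤ C * (p : ℝ) ^ (3 / 4 : ℝ)) := by
    intro D'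
    by_cases h : 2 ≤ D'
    · obtain ⟨C, hC, h'⟩ := twist (2 * D * m) D' h
      exact ⟨C, hC, fun _ => h'⟩
    · exact ⟨0, le_rfl, fun h' => absurd h' h⟩
  choose c hc0 hc using H
  refine ⟨∑ d ∈ range (D + 1), c d, Finset.sum_nonneg fun d _ => hc0 d, ?_⟩
  intro p _ χ hχ f₁ f₂ d₁ d₂ h₁ h₂ r₁ r₂ i hi j hj hij a
  obtain ⟨g, i', j', D', hg, ei, ej, eD, hD', hco⟩ := split_tb hi hj hij
  have hg1 : 1 ≤ g := Nat.pos_of_ne_zero hg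
  have hord : orderOf (χ ^ g) = D' := by
    rw [orderOf_pow' _ hg, hχ, eD, Nat.gcd_mul_right_left, Nat.mul_div_cancel_left _ hg1]
  have li : i' ≤ D := le_trans (Nat.le_mul_of_pos_left _ hg1) (ei ▸ hi.le)
  have lj : j' ≤ D := le_trans (Nat.le_mul_of_pos_left _ hg1) (ej ▸ hj.le)
  have lD : D' ≤ D := le_trans (Nat.le_mul_of_pos_left _ hg1) eD.ge
  have hdeg : (f₁ ^ i' * f₂ ^ j').natDegree ≤ 2 * D * m := by
    refine natDegree_mul_le.trans ?_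
    have a₁ : (f₁ ^ i').natDegree ≤ D * m := natDegree_pow_le.trans (Nat.mul_le_mul li d₁)
    have a₂ : (f₂ ^ j').natDegree ≤ D * m := natDegree_pow_le.trans (Nat.mul_le_mul lj d₂)
    rw [mul_assoc]
    omega
  have key := hc D' hD' p (χ ^ g) hord _ hdeg (np_tb h₁ h₂ r₁ r₂ hco) a
  have e : ∀ v, (χ ^ g) ((f₁ ^ i' * f₂ ^ j').eval v) = χ (f₁.eval v) ^ i * χ (f₂.eval v) ^ j := by
    intro v
    rw [eval_mul, eval_pow, eval_pow, map_mul, map_pow, map_pow, MulChar.pow_apply' _ hg,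
      MulChar.pow_apply' _ hg, ← pow_mul, ← pow_mul, ← ei, ← ej]
  simp only [e] at key
  refine key.trans (mul_le_mul_of_nonneg_right ?_ (by positivity))
  exact Finset.single_le_sum (fun d _ => hc0 d) (Finset.mem_range.2 (by omega))

end Vale.Agent.P042.S
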